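import Mathlib.LinearAlgebra.BilinearForm.Properties
import Mathlib.LinearAlgebra.BilinearForm.Orthogonal
import Mathlib.LinearAlgebra.Dimension.Constructions
import Mathlib.LinearAlgebra.FreeModule.PID
import Mathlib.LinearAlgebra.Dimension.RankNullity
import Mathlib.LinearAlgebra.Dimension.Localization
import Mathlib.Tactic

/-!
# P287: lattice step, definitions
-/

namespace Vale.Agent.P287Q.Lat

open Module

variable {L M : Type*} [AddCommGroup L] [AddCommGroup M]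

/-- The lattice `(L, B)` has signature `(p, q)`. -/
def Sig (B : LinearMap.BilinForm ℤ L) (p q : ℕ) : Prop :=
  finrank ℤ L = p + q ∧ ∃ P N : Submodule ℤ L, finrank ℤ P = p ∧ finrank ℤ N = q ∧
    (∀ x ∈ P, x ≠ 0 → 0 < B x x) ∧ ∀ x ∈ N, x ≠ 0 → B x x < 0

/-- A saturated sublattice. -/
def Sat (A : Submodule ℤ L) : Prop := ∀ (k : ℤ) (x : L), k ≠ 0 → k • x ∈ A → x ∈ A

/-- A linear map that stays injective modulo `p`. -/
def Prim (p : ℤ) (φ : L →ₗ[ℤ] M) : Prop := ∀ x y, φ x = p • y → ∃ z, x = p • z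

/-- The norm form of the Eisenstein integers. -/
def nf (a b : ℤ) : ℤ := a ^ 2 + a * b + b ^ 2

/-- The orthogonal sum of two forms. -/
def sumB (B : LinearMap.BilinForm ℤ L) (C : LinearMap.BilinForm ℤ M) :
    LinearMap.BilinForm ℤ (L × M) :=
  B.compl₁₂ (LinearMap.fst ℤ L M) (LinearMap.fst ℤ L M) +
    C.compl₁₂ (LinearMap.snd ℤ L M) (LinearMap.snd ℤ L M)

@[simp] theorem sumB_apply (B : LinearMap.BilinForm ℤ L) (C : LinearMap.BilinForm ℤ M)
    (x y : L × M) : sumB B C x y = B x.1 y.1 + C x.2 y.2 := rfl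

/-- The negative definite form `-(x₁y₁ + ⋯ + x_k y_k)`. -/
def negI (k : ℕ) : LinearMap.BilinForm ℤ (Fin k → ℤ) :=
  LinearMap.mk₂ ℤ (fun x y => -∑ i, x i * y i)
    (fun x x' y => by simp [add_mul, Finset.sum_add_distrib, add_comm])
    (fun c x y => by simp [Finset.mul_sum, mul_assoc])
    (fun x y y' => by simp [mul_add, Finset.sum_add_distrib, add_comm])
    (fun c x y => by simp [Finset.mul_sum, mul_left_comm])

@[simp] theorem negI_apply (k : ℕ) (x y : Fin k → ℤ) : negI k x y = -∑ i, x i * y i := rfl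

/-- The discriminant form of the labellings: `disc B η v v` is the Gram determinant of `η, v`
when `η² = 3`. -/
def disc (B : LinearMap.BilinForm ℤ L) (η : L) : LinearMap.BilinForm ℤ L :=
  LinearMap.mk₂ ℤ (fun x y => 3 * B x y - B x η * B y η)
    (fun x x' y => by simp only [map_add, LinearMap.add_apply]; ring)
    (fun c x y => by simp only [map_smul, LinearMap.smul_apply, smul_eq_mul]; ring)
    (fun x y y' => by simp only [map_add, LinearMap.add_apply]; ring)
    (fun c x y => by simp only [map_smul, LinearMap.smul_apply, smul_eq_mul]; ring)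

@[simp] theorem disc_apply (B : LinearMap.BilinForm ℤ L) (η x y : L) :
    disc B η x y = 3 * B x y - B x η * B y η := rfl

/-- The arithmetic conditions on an admissible discriminant, apart from `d > 6`. -/
def Adm (d : ℤ) : Prop :=
  0 < d ∧ (d % 6 = 0 ∨ d % 6 = 2) ∧ ¬ (4 : ℤ) ∣ d ∧ ¬ (9 : ℤ) ∣ d ∧
    ∀ p : ℕ, p.Prime → p ≠ 2 → p % 3 = 2 → ¬ (p : ℤ) ∣ d

/-- A rational isotropic vector of `A ⊕ ⟨-1⟩³` orthogonal to, and not proportional to,
`(η, (1,1,1))`. -/
def K0 (B : LinearMap.BilinForm ℤ L) (η : L) : Prop :=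
  ∃ (x x' : L) (u u' : Fin 3 → ℤ), ∑ i, u i = B x η ∧ ∑ i, u' i = B x' η ∧
    B x x = ∑ i, u i * u i ∧ B x x' ≠ ∑ i, u i * u' i

/-- The same modulo `p`. -/
def Kp (B : LinearMap.BilinForm ℤ L) (η : L) (p : ℤ) : Prop :=
  ∃ (x x' : L) (u u' : Fin 3 → ℤ) (k l : ℤ), ∑ i, u i = B x η ∧ ∑ i, u' i = B x' η ∧
    B x x - ∑ i, u i * u i = 2 * p * k + p ^ 2 * l ∧ ¬ p ∣ B x x' - ∑ i, u i * u' i

/-- `E x` is primitively represented by the norm form modulo every power of `p`. -/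
def LocRep {A : Type*} (E : A → ℤ) (p : ℕ) : Prop :=
  ∃ x, ∀ j : ℕ, ∃ a b : ℤ, ¬ ((p : ℤ) ∣ a ∧ (p : ℤ) ∣ b) ∧ (p : ℤ) ^ j ∣ nf a b - E x

end Vale.Agent.P287Q.Lat
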