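import Vale.Agent.P287Q.Lat.Defs
import Mathlib.Analysis.Complex.Basic

/-! # P287: lattice step, signature from a Hermitian decomposition -/

namespace Vale.Agent.P287Q.Lat

open Module

universe u

theorem Sgn_disj {L : Type*} [AddCommGroup L] [Module.Finite ℤ L] (s t : Submodule ℤ L)
    (h : Disjoint s t) : finrank ℤ s + finrank ℤ t = finrank ℤ ↥(s ⊔ t) := by
  have key := Submodule.rank_sup_add_rank_inf_eq s t
  rw [h.eq_bot, rank_bot, add_zero] at key
  repeat rw [← Submodule.finrank_eq_rank] at key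
  norm_cast at key
  exact key.symm

theorem Sgn_disj_le {L : Type*} [AddCommGroup L] [Module.Finite ℤ L] (s t : Submodule ℤ L)
    (h : Disjoint s t) : finrank ℤ s + finrank ℤ t ≤ finrank ℤ L :=
  (Sgn_disj s t h).trans_le (Submodule.finrank_le _)

/-- A symmetric integral form has an orthogonal frame of finite index. -/
theorem Sgn_diag (n : ℕ) : ∀ (L : Type u) [AddCommGroup L] [Module.Free ℤ L] [Module.Finite ℤ L]
    (B : LinearMap.BilinForm ℤ L), (∀ x y, B x y = B y x) → finrank ℤ L = n →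
    ∃ v : Fin n → L, (∀ i j, i ≠ j → B (v i) (v j) = 0) ∧ LinearIndependent ℤ v ∧
      ∀ x : L, ∃ k : ℤ, k ≠ 0 ∧ k • x ∈ Submodule.span ℤ (Set.range v) := by
  have base : ∀ (n : ℕ) (L : Type u) [AddCommGroup L] [Module.Free ℤ L] [Module.Finite ℤ L]
      (B : LinearMap.BilinForm ℤ L), (∀ x y, B x y = B y x) → finrank ℤ L = n →
      (∀ x, B x x = 0) →
      ∃ v : Fin n → L, (∀ i j, i ≠ j → B (v i) (v j) = 0) ∧ LinearIndependent ℤ v ∧
        ∀ x : L, ∃ k : ℤ, k ≠ 0 ∧ k • x ∈ Submodule.span ℤ (Set.range v) := by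
    intro n L _ _ _ B hB hn h
    have h0 : ∀ x y, B x y = 0 := by
      intro x y
      have h1 := h (x + y)
      simp only [map_add, LinearMap.add_apply, h x, h y, hB y x] at h1
      linarith
    let b := Module.finBasisOfFinrankEq ℤ L hn
    refine ⟨b, fun i j _ => h0 _ _, b.linearIndependent, fun x => ⟨1, one_ne_zero, ?_⟩⟩
    rw [b.span_eq]; trivial
  induction n with
  | zero =>
    intro L _ _ _ B hB hn
    refine base 0 L B hB hn fun x => ?_
    have : Subsingleton L := Module.finrank_zero_iff.mp hn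
    rw [Subsingleton.elim x 0]; simp
  | succ n ih =>
    intro L _ _ _ B hB hn
    by_cases h : ∀ x, B x x = 0
    · exact base _ L B hB hn h
    obtain ⟨x0, hx0⟩ := not_forall.mp h
    set K : Submodule ℤ L := LinearMap.ker (B x0) with hK
    have hKn : finrank ℤ K = n := by
      have h1 := K.finrank_quotient_add_finrank
      rw [LinearEquiv.finrank_eq (B x0).quotKerEquivRange] at h1
      have h2 : finrank ℤ (LinearMap.range (B x0)) ≤ 1 := by
        have := Submodule.finrank_le (LinearMap.range (B x0))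
        rwa [Module.finrank_self] at this
      have h3 : finrank ℤ (LinearMap.range (B x0)) ≠ 0 := by
        intro h3
        have h4 : Subsingleton (LinearMap.range (B x0)) := Module.finrank_zero_iff.mp h3
        have h5 : (⟨B x0 x0, x0, rfl⟩ : LinearMap.range (B x0)) = 0 := Subsingleton.elim _ _
        exact hx0 (congrArg Subtype.val h5)
      omega
    obtain ⟨w, hw1, hw2, hw3⟩ := ih K (LinearMap.BilinForm.restrict B K)
      (fun x y => hB x y) hKn
    have hw0 : ∀ i, B x0 (w i : L) = 0 := fun i => (w i).2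
    refine ⟨Fin.cons x0 fun i => (w i : L), ?_, ?_, ?_⟩
    · intro i j hij
      refine Fin.cases (motive := fun i => i ≠ j → B ((Fin.cons x0 (fun i => (w i : L)) :
        Fin (n + 1) → L) i) ((Fin.cons x0 (fun i => (w i : L)) : Fin (n + 1) → L) j) = 0)
        ?_ (fun i => ?_) i hij
      · refine Fin.cases (fun h => absurd rfl h) (fun j _ => ?_) j
        simp only [Fin.cons_succ, Fin.cons_zero]
        exact hw0 j
      · refine Fin.cases (fun _ => ?_) (fun j h => ?_) j
        · simp only [Fin.cons_succ, Fin.cons_zero]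
          rw [hB]; exact hw0 i
        · simp only [Fin.cons_succ]
          exact hw1 i j fun e => h (by rw [e])
    · rw [Fintype.linearIndependent_iff]
      intro g hg
      rw [Fin.sum_univ_succ] at hg
      simp only [Fin.cons_zero, Fin.cons_succ] at hg
      have h1 := congrArg (B x0) hg
      simp only [map_add, map_sum, map_smul, hw0, smul_eq_mul, mul_zero, Finset.sum_const_zero,
        add_zero, map_zero] at h1
      have g0 : g 0 = 0 := (mul_eq_zero.mp h1).resolve_right hx0
      rw [g0, zero_smul, zero_add] at hg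
      have h2 : ∑ i, g i.succ • w i = 0 := by
        apply Subtype.ext
        simpa using hg
      have h3 := Fintype.linearIndependent_iff.mp hw2 _ h2
      intro i
      exact Fin.cases g0 h3 i
    · intro x
      have hx : B x0 x0 • x - B x0 x • x0 ∈ K := by
        simp only [hK, LinearMap.mem_ker, map_sub, map_smul, smul_eq_mul]
        ring
      obtain ⟨k, hk, hk'⟩ := hw3 ⟨_, hx⟩
      refine ⟨k * B x0 x0, mul_ne_zero hk hx0, ?_⟩
      have h1 : k • (B x0 x0 • x - B x0 x • x0) ∈
          Submodule.span ℤ (Set.range fun i => (w i : L)) := by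
        have := Submodule.mem_map_of_mem (f := K.subtype) hk'
        rw [Submodule.map_span, ← Set.range_comp] at this
        exact this
      rw [Fin.range_cons]
      have h2 : (k * B x0 x0) • x = k • (B x0 x0 • x - B x0 x • x0) + (k * B x0 x) • x0 := by
        rw [smul_sub, mul_smul, mul_smul]; abel
      rw [h2]
      exact Submodule.add_mem _ (Submodule.span_mono (Set.subset_insert _ _) h1)
        (Submodule.smul_mem _ _ (Submodule.subset_span (Set.mem_insert _ _)))

/-- The value of a form on a combination of orthogonal vectors. -/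
theorem Sgn_val {R W : Type*} [CommRing R] [AddCommGroup W] [Module R W]
    (β : LinearMap.BilinForm R W) {n : ℕ} (u : Fin n → W)
    (hu : ∀ i j, i ≠ j → β (u i) (u j) = 0) (s : Finset (Fin n)) (c d : Fin n → R) :
    β (∑ i ∈ s, c i • u i) (∑ i ∈ s, d i • u i) = ∑ i ∈ s, c i * d i * β (u i) (u i) := by
  simp only [map_sum, map_smul, LinearMap.sum_apply, LinearMap.smul_apply, smul_eq_mul]
  refine Finset.sum_congr rfl fun i hi => ?_
  rw [Finset.sum_eq_single i]
  · ring
  · intro j _ hj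
    rw [hu j i hj, mul_zero]
  · intro h; exact absurd hi h

theorem Sgn_rank {L : Type*} [AddCommGroup L] {n : ℕ} (v : Fin n → L)
    (hv : LinearIndependent ℤ v) (s : Finset (Fin n)) :
    finrank ℤ (Submodule.span ℤ (v '' s)) = s.card := by
  have h := finrank_span_eq_card (hv.comp (fun i : s => (i : Fin n)) Subtype.val_injective)
  rw [Fintype.card_coe] at h
  rw [← h, Set.image_eq_range]
  rfl

theorem Sgn_nonneg {L : Type*} [AddCommGroup L] (B : LinearMap.BilinForm ℤ L) {n : ℕ}
    (v : Fin n → L) (hv : ∀ i j, i ≠ j → B (v i) (v j) = 0) (s : Finset (Fin n))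
    (hs : ∀ i ∈ s, 0 ≤ B (v i) (v i)) (x : L) (hx : x ∈ Submodule.span ℤ (v '' s)) :
    0 ≤ B x x := by
  obtain ⟨c, rfl⟩ := (Submodule.mem_span_image_finset_iff_exists_fun' ℤ).mp hx
  rw [Sgn_val B v hv]
  exact Finset.sum_nonneg fun i hi => mul_nonneg (mul_self_nonneg _) (hs i hi)

theorem Sgn_pos {L : Type*} [AddCommGroup L] (B : LinearMap.BilinForm ℤ L) {n : ℕ}
    (v : Fin n → L) (hv : ∀ i j, i ≠ j → B (v i) (v j) = 0) (s : Finset (Fin n))
    (hs : ∀ i ∈ s, 0 < B (v i) (v i)) (x : L) (hx : x ∈ Submodule.span ℤ (v '' s)) (h0 : x ≠ 0) :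
    0 < B x x := by
  obtain ⟨c, rfl⟩ := (Submodule.mem_span_image_finset_iff_exists_fun' ℤ).mp hx
  rw [Sgn_val B v hv]
  obtain ⟨i, hi, hc⟩ : ∃ i ∈ s, c i ≠ 0 := by
    by_contra hc
    push Not at hc
    exact h0 (Finset.sum_eq_zero fun i hi => by rw [hc i hi, zero_smul])
  exact Finset.sum_pos' (fun i hi => mul_nonneg (mul_self_nonneg _) (hs i hi).le)
    ⟨i, hi, mul_pos (mul_self_pos.mpr hc) (hs i hi)⟩

theorem Sgn_nonpos {L : Type*} [AddCommGroup L] (B : LinearMap.BilinForm ℤ L) {n : ℕ}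
    (v : Fin n → L) (hv : ∀ i j, i ≠ j → B (v i) (v j) = 0) (s : Finset (Fin n))
    (hs : ∀ i ∈ s, B (v i) (v i) ≤ 0) (x : L) (hx : x ∈ Submodule.span ℤ (v '' s)) :
    B x x ≤ 0 := by
  have := Sgn_nonneg (-B) v (fun i j h => by simp [hv i j h]) s
    (fun i hi => by simpa using hs i hi) x hx
  simpa using this

theorem Sgn_neg {L : Type*} [AddCommGroup L] (B : LinearMap.BilinForm ℤ L) {n : ℕ}
    (v : Fin n → L) (hv : ∀ i j, i ≠ j → B (v i) (v j) = 0) (s : Finset (Fin n))
    (hs : ∀ i ∈ s, B (v i) (v i) < 0) (x : L) (hx : x ∈ Submodule.span ℤ (v '' s)) (h0 : x ≠ 0) :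
    B x x < 0 := by
  have := Sgn_pos (-B) v (fun i j h => by simp [hv i j h]) s
    (fun i hi => by simpa using hs i hi) x hx h0
  simpa using this

/-- A subspace of the span of a family meeting the span of a subfamily trivially. -/
theorem Sgn_dim {K W : Type*} [Field K] [AddCommGroup W] [Module K W] {n : ℕ} (u : Fin n → W)
    (s : Finset (Fin n)) (P : Submodule K W) (hP : P ≤ Submodule.span K (Set.range u))
    (hd : ∀ x ∈ P, x ∈ Submodule.span K (u '' (sᶜ : Finset (Fin n))) → x = 0) :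
    finrank K P ≤ s.card := by
  set S := Submodule.span K (u '' (sᶜ : Finset (Fin n))) with hS
  set T := Submodule.span K (Set.range fun i : s => S.mkQ (u i)) with hT
  have hfin : Module.Finite K T := Module.Finite.span_of_finite K (Set.finite_range _)
  have hmem : ∀ x : P, S.mkQ x ∈ T := by
    intro x
    have h1 := Submodule.mem_map_of_mem (f := S.mkQ) (hP x.2)
    rw [Submodule.map_span] at h1
    refine Submodule.span_le.mpr ?_ h1
    rintro _ ⟨_, ⟨i, rfl⟩, rfl⟩
    by_cases hi : i ∈ s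
    · exact Submodule.subset_span ⟨⟨i, hi⟩, rfl⟩
    · have : S.mkQ (u i) = 0 := by
        rw [Submodule.mkQ_apply, Submodule.Quotient.mk_eq_zero]
        exact Submodule.subset_span ⟨i, by simpa using hi, rfl⟩
      rw [this]; exact T.zero_mem
  have hinj : Function.Injective (LinearMap.codRestrict T (S.mkQ.comp P.subtype) hmem) := by
    rw [← LinearMap.ker_eq_bot, eq_bot_iff]
    intro x hx
    have h1 : S.mkQ x = 0 := congrArg Subtype.val hx
    rw [Submodule.mkQ_apply, Submodule.Quotient.mk_eq_zero] at h1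
    exact Subtype.ext (hd x x.2 h1)
  refine (LinearMap.finrank_le_finrank_of_injective hinj).trans ?_
  have := finrank_range_le_card (R := K) fun i : s => S.mkQ (u i)
  rwa [Fintype.card_coe] at this

theorem Sgn_span {K L W : Type*} [Field K] [CharZero K] [AddCommGroup L] [AddCommGroup W]
    [Module K W] (ι : L →+ W) {n : ℕ} (v : Fin n → L)
    (hv : ∀ x : L, ∃ k : ℤ, k ≠ 0 ∧ k • x ∈ Submodule.span ℤ (Set.range v)) :
    Submodule.span K (Set.range ι) ≤ Submodule.span K (Set.range fun i => ι (v i)) := by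
  refine Submodule.span_le.mpr ?_
  rintro _ ⟨x, rfl⟩
  obtain ⟨k, hk, hx⟩ := hv x
  obtain ⟨c, hc⟩ := (Submodule.mem_span_range_iff_exists_fun ℤ).mp hx
  have h1 : (k : K) • ι x ∈ Submodule.span K (Set.range fun i => ι (v i)) := by
    rw [Int.cast_smul_eq_zsmul, ← map_zsmul, ← hc, map_sum]
    refine Submodule.sum_mem _ fun i _ => ?_
    rw [map_zsmul, ← Int.cast_smul_eq_zsmul K]
    exact Submodule.smul_mem _ _ (Submodule.subset_span ⟨i, rfl⟩)
  exact (Submodule.smul_mem_iff _ (Int.cast_ne_zero.mpr hk)).mp h1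

/-- The signature from bounds on the numbers of positive and negative frame vectors. -/
theorem Sgn_of_le {L : Type*} [AddCommGroup L] (B : LinearMap.BilinForm ℤ L) {n : ℕ}
    (hn : finrank ℤ L = n) (v : Fin n → L) (hv : ∀ i j, i ≠ j → B (v i) (v j) = 0)
    (hv' : LinearIndependent ℤ v) {p q : ℕ}
    (hp : p ≤ (Finset.univ.filter fun i => 0 < B (v i) (v i)).card)
    (hq : q ≤ (Finset.univ.filter fun i => B (v i) (v i) < 0).card) (hr : n ≤ p + q) :
    Sig B p q := by
  set s := Finset.univ.filter fun i => 0 < B (v i) (v i) with hs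
  set t := Finset.univ.filter fun i => B (v i) (v i) < 0 with ht
  have hst : s.card + t.card ≤ n := by
    rw [← Finset.card_union_of_disjoint]
    · exact (Finset.card_le_univ _).trans (Fintype.card_fin n).le
    · rw [Finset.disjoint_left]
      intro i h1 h2
      exact lt_asymm (Finset.mem_filter.mp h1).2 (Finset.mem_filter.mp h2).2
  refine ⟨by omega, Submodule.span ℤ (v '' s), Submodule.span ℤ (v '' t), ?_, ?_,
    Sgn_pos B v hv s fun i hi => (Finset.mem_filter.mp hi).2,
    Sgn_neg B v hv t fun i hi => (Finset.mem_filter.mp hi).2⟩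
  · rw [Sgn_rank v hv']; omega
  · rw [Sgn_rank v hv']; omega

theorem sig_of_herm {L W : Type*} [AddCommGroup L] [Module.Free ℤ L] [Module.Finite ℤ L]
    [AddCommGroup W] [Module ℂ W] (B : LinearMap.BilinForm ℤ L) (hB : ∀ x y, B x y = B y x)
    (β : LinearMap.BilinForm ℂ W) (σ : W →+ W)
    (hσ : ∀ (c : ℂ) (x : W), σ (c • x) = (starRingEnd ℂ c) • σ x) (ι : L →+ W)
    (hι : ∀ x y, β (ι x) (ι y) = (B x y : ℂ)) (hσι : ∀ x, σ (ι x) = ι x)
    (P N : Submodule ℂ W) (hPs : P ≤ Submodule.span ℂ (Set.range ι))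
    (hNs : N ≤ Submodule.span ℂ (Set.range ι))
    (hP : ∀ x ∈ P, x ≠ 0 → 0 < (β x (σ x)).re) (hN : ∀ x ∈ N, x ≠ 0 → (β x (σ x)).re < 0)
    (hr : finrank ℤ L ≤ finrank ℂ P + finrank ℂ N) : Sig B (finrank ℂ P) (finrank ℂ N) := by
  obtain ⟨v, hv1, hv2, hv3⟩ := Sgn_diag _ L B hB rfl
  have hu : ∀ i j, i ≠ j → β (ι (v i)) (ι (v j)) = 0 := fun i j h => by
    rw [hι, hv1 i j h, Int.cast_zero]
  have hval : ∀ (s : Finset (Fin (finrank ℤ L))) (c : Fin (finrank ℤ L) → ℂ),
      (β (∑ i ∈ s, c i • ι (v i)) (σ (∑ i ∈ s, c i • ι (v i)))).re =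
        ∑ i ∈ s, Complex.normSq (c i) * (B (v i) (v i) : ℝ) := by
    intro s c
    rw [map_sum σ]
    simp only [hσ, hσι]
    rw [Sgn_val β (fun i => ι (v i)) hu, Complex.re_sum]
    refine Finset.sum_congr rfl fun i _ => ?_
    rw [hι, Complex.mul_conj]
    simp
  refine Sgn_of_le B rfl v hv1 hv2 ?_ ?_ hr
  · refine Sgn_dim (fun i => ι (v i)) _ P (hPs.trans (Sgn_span ι v hv3)) fun x hx hx' => ?_
    by_contra h0
    have h1 := hP x hx h0
    obtain ⟨c, rfl⟩ := (Submodule.mem_span_image_finset_iff_exists_fun' ℂ).mp hx'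
    rw [hval] at h1
    refine absurd h1 (not_lt.mpr (Finset.sum_nonpos fun i hi => ?_))
    have : B (v i) (v i) ≤ 0 := by simpa using hi
    exact mul_nonpos_of_nonneg_of_nonpos (Complex.normSq_nonneg _) (by exact_mod_cast this)
  · refine Sgn_dim (fun i => ι (v i)) _ N (hNs.trans (Sgn_span ι v hv3)) fun x hx hx' => ?_
    by_contra h0
    have h1 := hN x hx h0
    obtain ⟨c, rfl⟩ := (Submodule.mem_span_image_finset_iff_exists_fun' ℂ).mp hx'
    rw [hval] at h1
    refine absurd h1 (not_lt.mpr (Finset.sum_nonneg fun i hi => ?_))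
    have : 0 ≤ B (v i) (v i) := by simpa using hi
    exact mul_nonneg (Complex.normSq_nonneg _) (by exact_mod_cast this)

theorem sig_of_real {L W : Type*} [AddCommGroup L] [Module.Free ℤ L] [Module.Finite ℤ L]
    [AddCommGroup W] [Module ℝ W] (B : LinearMap.BilinForm ℤ L) (hB : ∀ x y, B x y = B y x)
    (β : LinearMap.BilinForm ℝ W) (ι : L →+ W) (hι : ∀ x y, β (ι x) (ι y) = (B x y : ℝ))
    (P N : Submodule ℝ W) (hPs : P ≤ Submodule.span ℝ (Set.range ι))
    (hNs : N ≤ Submodule.span ℝ (Set.range ι))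
    (hP : ∀ x ∈ P, x ≠ 0 → 0 < β x x) (hN : ∀ x ∈ N, x ≠ 0 → β x x < 0)
    (hr : finrank ℤ L ≤ finrank ℝ P + finrank ℝ N) : Sig B (finrank ℝ P) (finrank ℝ N) := by
  obtain ⟨v, hv1, hv2, hv3⟩ := Sgn_diag _ L B hB rfl
  have hu : ∀ i j, i ≠ j → β (ι (v i)) (ι (v j)) = 0 := fun i j h => by
    rw [hι, hv1 i j h, Int.cast_zero]
  have hval : ∀ (s : Finset (Fin (finrank ℤ L))) (c : Fin (finrank ℤ L) → ℝ),
      β (∑ i ∈ s, c i • ι (v i)) (∑ i ∈ s, c i • ι (v i)) =
        ∑ i ∈ s, c i * c i * (B (v i) (v i) : ℝ) := by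
    intro s c
    rw [Sgn_val β (fun i => ι (v i)) hu]
    refine Finset.sum_congr rfl fun i _ => ?_
    rw [hι]
  refine Sgn_of_le B rfl v hv1 hv2 ?_ ?_ hr
  · refine Sgn_dim (fun i => ι (v i)) _ P (hPs.trans (Sgn_span ι v hv3)) fun x hx hx' => ?_
    by_contra h0
    have h1 := hP x hx h0
    obtain ⟨c, rfl⟩ := (Submodule.mem_span_image_finset_iff_exists_fun' ℝ).mp hx'
    rw [hval] at h1
    refine absurd h1 (not_lt.mpr (Finset.sum_nonpos fun i hi => ?_))
    have : B (v i) (v i) ≤ 0 := by simpa using hi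
    exact mul_nonpos_of_nonneg_of_nonpos (mul_self_nonneg _) (by exact_mod_cast this)
  · refine Sgn_dim (fun i => ι (v i)) _ N (hNs.trans (Sgn_span ι v hv3)) fun x hx hx' => ?_
    by_contra h0
    have h1 := hN x hx h0
    obtain ⟨c, rfl⟩ := (Submodule.mem_span_image_finset_iff_exists_fun' ℝ).mp hx'
    rw [hval] at h1
    refine absurd h1 (not_lt.mpr (Finset.sum_nonneg fun i hi => ?_))
    have : 0 ≤ B (v i) (v i) := by simpa using hi
    exact mul_nonneg (mul_self_nonneg _) (by exact_mod_cast this)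

/-- Splitting off an orthogonal negative frame. -/
theorem Sig.restrict {L : Type*} [AddCommGroup L] [Module.Free ℤ L] [Module.Finite ℤ L]
    (B : LinearMap.BilinForm ℤ L) (hB : ∀ x y, B x y = B y x) {p q : ℕ} (h : Sig B p q)
    (U W : Submodule ℤ L) (hUW : ∀ x ∈ U, ∀ y ∈ W, B x y = 0)
    (hW : ∀ x ∈ W, x ≠ 0 → B x x < 0) (hr : finrank ℤ U + finrank ℤ W = finrank ℤ L) :
    finrank ℤ W ≤ q ∧ Sig (LinearMap.BilinForm.restrict B U) p (q - finrank ℤ W) := by
  obtain ⟨hL, P, N, hp, hq, hP, hN⟩ := h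
  obtain ⟨v, hv1, hv2, -⟩ := Sgn_diag _ U (LinearMap.BilinForm.restrict B U)
    (fun x y => hB x y) rfl
  have hu1 : ∀ i j, i ≠ j → B (v i : L) (v j : L) = 0 := hv1
  have hu2 : LinearIndependent ℤ fun i => (v i : L) :=
    hv2.map' U.subtype (Submodule.ker_subtype U)
  set a := Finset.univ.filter fun i => B (v i : L) (v i : L) ≤ 0 with ha
  set c := Finset.univ.filter fun i => 0 ≤ B (v i : L) (v i : L) with hc
  set A := Submodule.span ℤ ((fun i => (v i : L)) '' a) with hA
  have hAU : A ≤ U := by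
    refine Submodule.span_le.mpr ?_
    rintro _ ⟨i, -, rfl⟩
    exact (v i).2
  have hA0 : ∀ x ∈ A, B x x ≤ 0 :=
    Sgn_nonpos B _ hu1 a fun i hi => (Finset.mem_filter.mp hi).2
  have h1 : Disjoint A W := by
    rw [Submodule.disjoint_def]
    intro x hx hx'
    by_contra h0
    exact absurd (hUW x (hAU hx) x hx') (hW x hx' h0).ne
  have h2 : Disjoint (A ⊔ W) P := by
    rw [Submodule.disjoint_def]
    intro x hx hx'
    by_contra h0
    have h3 := hP x hx' h0
    obtain ⟨y, hy, z, hz, rfl⟩ := Submodule.mem_sup.mp hx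
    have h4 : B z z ≤ 0 := by
      by_cases hz0 : z = 0
      · simp [hz0]
      · exact (hW z hz hz0).le
    have h5 := hUW y (hAU hy) z hz
    have h6 := hA0 y hy
    simp only [map_add, LinearMap.add_apply, hB z y, h5] at h3
    linarith
  have h3 : Disjoint (Submodule.span ℤ ((fun i => (v i : L)) '' c)) N := by
    rw [Submodule.disjoint_def]
    intro x hx hx'
    by_contra h0
    exact absurd (hN x hx' h0) (not_lt.mpr
      (Sgn_nonneg B _ hu1 c (fun i hi => (Finset.mem_filter.mp hi).2) x hx))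
  have e1 := Sgn_disj A W h1
  have e2 := Sgn_disj_le _ _ h2
  have e3 := Sgn_disj_le _ _ h3
  rw [hA, Sgn_rank _ hu2] at e1
  rw [Sgn_rank _ hu2] at e3
  rw [← hA] at e1
  have f1 : (Finset.univ.filter fun i => 0 < B (v i : L) (v i : L)).card + a.card =
      finrank ℤ U := by
    have := Finset.card_filter_add_card_filter_not (s := Finset.univ)
      fun i => 0 < B (v i : L) (v i : L)
    simp only [not_lt, Finset.card_univ, Fintype.card_fin] at this
    exact this
  have f2 : (Finset.univ.filter fun i => B (v i : L) (v i : L) < 0).card + c.card =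
      finrank ℤ U := by
    have := Finset.card_filter_add_card_filter_not (s := Finset.univ)
      fun i => B (v i : L) (v i : L) < 0
    simp only [not_lt, Finset.card_univ, Fintype.card_fin] at this
    exact this
  refine ⟨by omega, Sgn_of_le _ rfl v hv1 hv2 ?_ ?_ (by omega)⟩
  · change p ≤ (Finset.univ.filter fun i => 0 < B (v i : L) (v i : L)).card
    omega
  · change q - finrank ℤ W ≤ (Finset.univ.filter fun i => B (v i : L) (v i : L) < 0).card
    omega

end Vale.Agent.P287Q.Lat
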