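import Vale.Agent.P287Q.Lat.Defs

/-! # P287: lattice step, saturation of a labelling -/

namespace Vale.Agent.P287Q.Lat

open Module

variable {A : Type*} [AddCommGroup A]

theorem stu_norm (B : LinearMap.BilinForm ℤ A) (hB : ∀ x y, B x y = B y x) (η : A)
    (hη : B η η = 3) (x : A) :
    B ((3 : ℤ) • x - B x η • η) ((3 : ℤ) • x - B x η • η) = 3 * disc B η x x := by
  simp only [map_sub, map_smul, LinearMap.sub_apply, LinearMap.smul_apply, smul_eq_mul,
    disc_apply, hη, hB η x]
  ring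

theorem disc_nonneg (B : LinearMap.BilinForm ℤ A) (hB : ∀ x y, B x y = B y x) (η : A)
    (hη : B η η = 3) (hpos : ∀ x, x ≠ 0 → 0 < B x x) (x : A) : 0 ≤ disc B η x x := by
  have h := stu_norm B hB η hη x
  by_cases h0 : (3 : ℤ) • x - B x η • η = 0
  · rw [h0, map_zero] at h
    omega
  · have := hpos _ h0
    omega

theorem stu_tf (B : LinearMap.BilinForm ℤ A) (hpos : ∀ x, x ≠ 0 → 0 < B x x) {k : ℤ} (hk : k ≠ 0)
    {y : A} (h : k • y = 0) : y = 0 := by
  by_contra hy
  have h1 := hpos y hy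
  have h2 : k * B y y = 0 := by
    rw [← smul_eq_mul, ← map_smul, h, map_zero]
  rcases mul_eq_zero.1 h2 with h3 | h3
  · exact hk h3
  · omega

theorem stu_zero (B : LinearMap.BilinForm ℤ A) (hB : ∀ x y, B x y = B y x) (η : A)
    (hη : B η η = 3) (hpos : ∀ x, x ≠ 0 → 0 < B x x) {y : A} (h : disc B η y y = 0) :
    ∃ t : ℤ, y = t • η := by
  have h1 := stu_norm B hB η hη y
  have h0 : (3 : ℤ) • y - B y η • η = 0 := by
    by_contra h0
    have := hpos _ h0
    omega
  have h3 : (3 : ℤ) ∣ B y η := by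
    rw [disc_apply] at h
    have : (3 : ℤ) ∣ B y η * B y η := ⟨B y y, by omega⟩
    exact (Int.prime_three.dvd_or_dvd this).elim id id
  obtain ⟨t, ht⟩ := h3
  refine ⟨t, sub_eq_zero.1 (stu_tf B hpos (k := 3) (by norm_num) ?_)⟩
  rw [smul_sub, smul_smul, ← ht, h0]

theorem stu_eta (B : LinearMap.BilinForm ℤ A) (η : A) (hη : B η η = 3) (x : A) :
    disc B η x η = 0 := by
  rw [disc_apply, hη]
  ring

/-- The saturation of a sublattice. -/
def stuSat (S : Submodule ℤ A) : Submodule ℤ A where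
  carrier := {y | ∃ k : ℤ, k ≠ 0 ∧ k • y ∈ S}
  zero_mem' := ⟨1, one_ne_zero, by simp⟩
  add_mem' := by
    rintro a b ⟨k, hk, ha⟩ ⟨l, hl, hb⟩
    refine ⟨k * l, mul_ne_zero hk hl, ?_⟩
    rw [smul_add]
    refine S.add_mem ?_ ?_
    · rw [mul_comm, mul_smul]
      exact S.smul_mem _ ha
    · rw [mul_smul]
      exact S.smul_mem _ hb
  smul_mem' := by
    rintro c a ⟨k, hk, ha⟩
    refine ⟨k, hk, ?_⟩
    rw [smul_comm]
    exact S.smul_mem _ ha

theorem stu_le (S : Submodule ℤ A) : S ≤ stuSat S := fun y hy => ⟨1, one_ne_zero, by simpa using hy⟩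

theorem stu_sat (S : Submodule ℤ A) : Sat (stuSat S) := by
  rintro k x hk ⟨l, hl, h⟩
  exact ⟨l * k, mul_ne_zero hl hk, by rwa [mul_smul]⟩

theorem exists_sat (B : LinearMap.BilinForm ℤ A) (hB : ∀ x y, B x y = B y x) (η : A)
    (hη : B η η = 3) (hpos : ∀ x, x ≠ 0 → 0 < B x x) (x : A) (hx : disc B η x x ≠ 0) :
    ∃ (v : A) (m s : ℤ), x = m • v + s • η ∧ Sat (Submodule.span ℤ {η, v}) := by
  set K := stuSat (Submodule.span ℤ {η, x}) with hK
  obtain ⟨g, hg⟩ := Int.subgroup_cyclic (K.map (disc B η x)).toAddSubgroup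
  have hgm : g ∈ (K.map (disc B η x)).toAddSubgroup := by
    rw [hg]
    exact AddSubgroup.subset_closure rfl
  obtain ⟨v, hv, hvg⟩ := hgm
  have hηK : η ∈ K := stu_le _ (Submodule.subset_span (by simp))
  have hxK : x ∈ K := stu_le _ (Submodule.subset_span (by simp))
  have key : ∀ y ∈ K, ∃ m s : ℤ, y = m • v + s • η := by
    intro y hy
    have h1 : disc B η x y ∈ (K.map (disc B η x)).toAddSubgroup := ⟨y, hy, rfl⟩
    rw [hg, AddSubgroup.mem_closure_singleton] at h1
    obtain ⟨m, hm⟩ := h1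
    have h2 : y - m • v ∈ K := K.sub_mem hy (K.smul_mem _ hv)
    have h3 : disc B η x (y - m • v) = 0 := by
      rw [map_sub, map_smul, hvg, hm, sub_self]
    obtain ⟨k, hk, h4⟩ := h2
    obtain ⟨a, b, hab⟩ := Submodule.mem_span_pair.1 h4
    have h5 : b * disc B η x x = 0 := by
      have := congrArg (disc B η x) hab
      rw [map_add, map_smul, map_smul, map_smul, h3, stu_eta B η hη x] at this
      simpa only [smul_eq_mul, mul_zero, zero_add] using this
    have hb : b = 0 := (mul_eq_zero.1 h5).resolve_right hx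
    rw [hb, zero_smul, add_zero] at hab
    have h6 : k * disc B η (y - m • v) (y - m • v) = 0 := by
      rw [← smul_eq_mul, ← map_smul, ← hab, map_smul, stu_eta B η hη, smul_zero]
    obtain ⟨t, ht⟩ := stu_zero B hB η hη hpos ((mul_eq_zero.1 h6).resolve_left hk)
    exact ⟨m, t, by rw [← ht]; abel⟩
  obtain ⟨m, s, hms⟩ := key x hxK
  refine ⟨v, m, s, hms, fun k y hk hy => ?_⟩
  have h1 : Submodule.span ℤ {η, v} ≤ K := by
    rw [Submodule.span_le]
    rintro z (rfl | rfl)
    exacts [hηK, hv]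
  obtain ⟨a, b, hab⟩ := key y (stu_sat _ k y hk (h1 hy))
  exact Submodule.mem_span_pair.2 ⟨b, a, by rw [hab, add_comm]⟩

theorem exists_orth [Module.Finite ℤ A] (B : LinearMap.BilinForm ℤ A)
    (hB : ∀ x y, B x y = B y x) (η : A) (hpos : ∀ x, x ≠ 0 → 0 < B x x) (h3 : 3 ≤ finrank ℤ A)
    (x : A) : ∃ y, disc B η y y ≠ 0 ∧ disc B η x y = 0 := by
  have h : ¬ Function.Injective ((B η).prod (B x)) := by
    intro h
    have := LinearMap.finrank_le_finrank_of_injective h
    simp only [finrank_prod, finrank_self] at this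
    omega
  rw [injective_iff_map_eq_zero] at h
  push Not at h
  obtain ⟨y, hy, hy0⟩ := h
  have h1 : B η y = 0 := congrArg Prod.fst hy
  have h2 : B x y = 0 := congrArg Prod.snd hy
  have h4 := hpos y hy0
  refine ⟨y, ?_, ?_⟩
  · rw [disc_apply, hB y η, h1]
    omega
  · rw [disc_apply, hB y η, h1, h2]
    ring

theorem span_two [Module.Finite ℤ A] (B : LinearMap.BilinForm ℤ A)
    (hB : ∀ x y, B x y = B y x) (η : A) (hη : B η η = 3) (h2 : finrank ℤ A ≤ 2) (v : A)
    (hv : disc B η v v ≠ 0) (hs : Sat (Submodule.span ℤ {η, v})) (y : A) :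
    y ∈ Submodule.span ℤ {η, v} := by
  have _ := hB
  have h : ¬ Function.Injective ((LinearMap.toSpanSingleton ℤ A η).coprod
      ((LinearMap.toSpanSingleton ℤ A v).coprod (LinearMap.toSpanSingleton ℤ A y))) := by
    intro h
    have := LinearMap.finrank_le_finrank_of_injective h
    simp only [finrank_prod, finrank_self] at this
    omega
  rw [injective_iff_map_eq_zero] at h
  push Not at h
  obtain ⟨⟨a, b, c⟩, h0, hne⟩ := h
  simp only [LinearMap.coprod_apply, LinearMap.toSpanSingleton_apply] at h0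
  by_cases hc : c = 0
  · exfalso
    rw [hc, zero_smul, add_zero] at h0
    have h1 : b * disc B η v v = 0 := by
      have := congrArg (disc B η v) h0
      rw [map_add, map_smul, map_smul, stu_eta B η hη v, map_zero] at this
      simpa only [smul_eq_mul, mul_zero, zero_add] using this
    have hb : b = 0 := (mul_eq_zero.1 h1).resolve_right hv
    rw [hb, zero_smul, add_zero] at h0
    have h3 : a * 3 = 0 := by
      rw [← hη, ← smul_eq_mul, ← map_smul, h0, map_zero]
    exact hne (by rw [hb, hc, show a = 0 by omega]; rfl)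
  · refine hs c y hc (Submodule.mem_span_pair.2 ⟨-a, -b, ?_⟩)
    rw [neg_smul, neg_smul, ← neg_add, neg_eq_iff_add_eq_zero, add_assoc]
    exact h0

end Vale.Agent.P287Q.Lat
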