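import Vale.Agent.P287Q.Lat.Core
import Vale.Agent.P287Q.Lat.Stu
import Mathlib.NumberTheory.LSeries.PrimesInAP
import Mathlib.NumberTheory.LegendreSymbol.JacobiSymbol

/-! # P287: lattice step, labellings of large discriminant -/

namespace Vale.Agent.P287Q.Lat

open Module Polynomial

theorem big_ell (N : ℕ) :
    ∃ l : ℕ, l.Prime ∧ N < l ∧ l % 12 = 11 ∧ IsSquare ((3 : ℤ) : ZMod l) := by
  obtain ⟨l, hl, hp, hm⟩ := Nat.forall_exists_prime_gt_and_modEq N (q := 12) (a := 11)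
    (by norm_num) (by norm_num)
  have h12 : l % 12 = 11 := hm
  have := Fact.mk hp
  refine ⟨l, hp, hl, h12, ZMod.isSquare_of_jacobiSym_eq_one ?_⟩
  have ho : Odd l := Nat.odd_iff.2 (by omega)
  rw [jacobiSym.mod_right _ ho]
  have : l % (4 * Int.natAbs 3) = 11 := h12
  rw [this]
  norm_num

theorem big_univ {l : ℕ} [Fact l.Prime] (h2 : l % 2 = 1) {α β : ZMod l} (hα : α ≠ 0)
    (hβ : β ≠ 0) (c : ZMod l) : ∃ s t : ZMod l, α * s ^ 2 + β * t ^ 2 = c := by
  obtain ⟨s, t, h⟩ := FiniteField.exists_root_sum_quadratic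
    (f := C α * X ^ 2) (g := C β * X ^ 2 - C c)
    (by rw [degree_C_mul_X_pow 2 hα]; rfl)
    (by
      rw [degree_sub_C (by rw [degree_C_mul_X_pow 2 hβ]; norm_num), degree_C_mul_X_pow 2 hβ]; rfl)
    (by rw [ZMod.card]; exact h2)
  refine ⟨s, t, ?_⟩
  simp only [eval_mul, eval_C, eval_pow, eval_X, eval_sub] at h
  linear_combination h

variable {A : Type*} [AddCommGroup A]

theorem big_x0 (B : LinearMap.BilinForm ℤ A) (hB : ∀ x y, B x y = B y x) (η : A)
    (hη : B η η = 3) (hpos : ∀ x, x ≠ 0 → 0 < B x x) (h0 : K0 B η) :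
    ∃ x, disc B η x x ≠ 0 := by
  obtain ⟨x, x', u, u', h1, h2, h3, h4⟩ := h0
  refine ⟨x, fun h => h4 ?_⟩
  simp only [Fin.sum_univ_three, disc_apply] at h1 h2 h3 h ⊢
  have e0 : (u 0 - u 1) ^ 2 + (u 1 - u 2) ^ 2 + (u 0 - u 2) ^ 2 = 0 := by
    rw [← h1, h3] at h
    linear_combination h
  have e1 : u 1 = u 0 := by
    have : (u 0 - u 1) ^ 2 = 0 := by
      linarith [sq_nonneg (u 0 - u 1), sq_nonneg (u 1 - u 2), sq_nonneg (u 0 - u 2)]
    linarith [pow_eq_zero_iff (two_ne_zero) |>.1 this]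
  have e2 : u 2 = u 0 := by
    have : (u 0 - u 2) ^ 2 = 0 := by
      linarith [sq_nonneg (u 0 - u 1), sq_nonneg (u 1 - u 2), sq_nonneg (u 0 - u 2)]
    linarith [pow_eq_zero_iff (two_ne_zero) |>.1 this]
  have hx : x - u 0 • η = 0 := by
    by_contra hne
    have := hpos _ hne
    simp only [map_sub, map_smul, LinearMap.sub_apply, LinearMap.smul_apply, smul_eq_mul,
      hB η x, hη] at this
    rw [← h1, h3, e1, e2] at this
    nlinarith
  rw [sub_eq_zero.1 hx, e1, e2, map_smul, LinearMap.smul_apply, smul_eq_mul, hB η x', ← h2]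
  ring

/-- The sublattice `ℤη + ℤx₁ + lA`. -/
def bigψ (η x₁ : A) (l : ℤ) : (A × ℤ × ℤ) →ₗ[ℤ] A where
  toFun d := l • d.1 + d.2.1 • η + d.2.2 • x₁
  map_add' d e := by simp only [Prod.fst_add, Prod.snd_add, smul_add, add_smul]; abel
  map_smul' c d := by
    simp only [Prod.smul_fst, Prod.smul_snd, smul_eq_mul, RingHom.id_apply, smul_add, mul_smul,
      smul_comm l c]

theorem bigψ_apply (η x₁ : A) (l : ℤ) (d : A × ℤ × ℤ) :
    bigψ η x₁ l d = l • d.1 + d.2.1 • η + d.2.2 • x₁ := rfl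

theorem big_mem (η x₁ : A) (l : ℤ) (x : A) : l • x ∈ LinearMap.range (bigψ η x₁ l) :=
  ⟨(x, 0, 0), by simp [bigψ_apply]⟩

theorem big_memη (η x₁ : A) (l : ℤ) : η ∈ LinearMap.range (bigψ η x₁ l) :=
  ⟨(0, 1, 0), by simp [bigψ_apply]⟩

theorem big_memx (η x₁ : A) (l : ℤ) : x₁ ∈ LinearMap.range (bigψ η x₁ l) :=
  ⟨(0, 0, 1), by simp [bigψ_apply]⟩

theorem big_K0 (B : LinearMap.BilinForm ℤ A) (η x₁ : A) {l : ℤ} (hl : l ≠ 0) (h0 : K0 B η) :
    K0 (LinearMap.BilinForm.restrict B (LinearMap.range (bigψ η x₁ l))) ⟨η, big_memη η x₁ l⟩ := by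
  obtain ⟨x, x', u, u', h1, h2, h3, h4⟩ := h0
  refine ⟨⟨l • x, big_mem η x₁ l x⟩, ⟨l • x', big_mem η x₁ l x'⟩, l • u, l • u', ?_, ?_, ?_, ?_⟩
  all_goals
    simp only [LinearMap.BilinForm.restrict_apply, LinearMap.domRestrict_apply, map_smul,
      LinearMap.smul_apply, smul_eq_mul, Fin.sum_univ_three, Pi.smul_apply] at h1 h2 h3 h4 ⊢
  · linear_combination l * h1
  · linear_combination l * h2
  · linear_combination l ^ 2 * h3
  · intro h
    refine h4 (mul_left_cancel₀ (pow_ne_zero 2 hl) ?_)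
    linear_combination h

theorem big_Kp (B : LinearMap.BilinForm ℤ A) (η x₁ : A) {l p : ℕ} (hl : l.Prime) (hp : p.Prime)
    (hpl : p ≠ l) (h0 : Kp B η p) :
    Kp (LinearMap.BilinForm.restrict B (LinearMap.range (bigψ η x₁ l))) ⟨η, big_memη η x₁ l⟩
      p := by
  obtain ⟨x, x', u, u', k, k', h1, h2, h3, h4⟩ := h0
  refine ⟨⟨(l : ℤ) • x, big_mem η x₁ l x⟩, ⟨(l : ℤ) • x', big_mem η x₁ l x'⟩, (l : ℤ) • u,
    (l : ℤ) • u', (l : ℤ) ^ 2 * k, (l : ℤ) ^ 2 * k', ?_, ?_, ?_, ?_⟩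
  all_goals
    simp only [LinearMap.BilinForm.restrict_apply, LinearMap.domRestrict_apply, map_smul,
      LinearMap.smul_apply, smul_eq_mul, Fin.sum_univ_three, Pi.smul_apply] at h1 h2 h3 h4 ⊢
  · linear_combination (l : ℤ) * h1
  · linear_combination (l : ℤ) * h2
  · linear_combination (l : ℤ) ^ 2 * h3
  · intro h
    have hp' : Prime (p : ℤ) := Nat.prime_iff_prime_int.1 hp
    have h' : (p : ℤ) ∣ (l : ℤ) ^ 2 * (B x x' - (u 0 * u' 0 + u 1 * u' 1 + u 2 * u' 2)) := by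
      convert h using 1
      ring
    rcases hp'.dvd_or_dvd h' with h5 | h5
    · exact hpl ((Nat.prime_dvd_prime_iff_eq hp hl).1
        (Int.natCast_dvd_natCast.1 (hp'.dvd_of_dvd_pow h5)))
    · exact h4 h5

theorem big_Kl (B : LinearMap.BilinForm ℤ A) (η x₁ : A) {l : ℕ} (hl : l.Prime)
    (h12 : l % 12 = 11) (hx : ((disc B η x₁ x₁ : ℤ) : ZMod l) ≠ 0) :
    Kp (LinearMap.BilinForm.restrict B (LinearMap.range (bigψ η x₁ l))) ⟨η, big_memη η x₁ l⟩
      l := by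
  have := Fact.mk hl
  have hn : ∀ m : ℕ, 0 < m → m < 11 → (m : ZMod l) ≠ 0 := fun m h1 h2 h => by
    have := Nat.le_of_dvd h1 ((ZMod.natCast_eq_zero_iff m l).1 h)
    omega
  have h2 : (2 : ZMod l) ≠ 0 := by exact_mod_cast hn 2 (by norm_num) (by norm_num)
  have h3 : (3 : ZMod l) ≠ 0 := by exact_mod_cast hn 3 (by norm_num) (by norm_num)
  obtain ⟨s, t, hst⟩ := big_univ (l := l) (by omega) (α := 1) (β := 3) one_ne_zero h3
    (2 * ((disc B η x₁ x₁ : ℤ) : ZMod l))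
  set c : ZMod l := ((B x₁ η : ℤ) : ZMod l) with hc
  obtain ⟨u1, hu1⟩ := ZMod.intCast_surjective ((2 * c - s + 3 * t) / (2 * 3))
  obtain ⟨u2, hu2⟩ := ZMod.intCast_surjective ((2 * c - s - 3 * t) / (2 * 3))
  have hdiv : (l : ℤ) ∣ B x₁ x₁ - ((B x₁ η - u1 - u2) * (B x₁ η - u1 - u2) + u1 * u1 + u2 * u2) := by
    rw [← ZMod.intCast_zmod_eq_zero_iff_dvd]
    push_cast
    rw [hu1, hu2, ← hc]
    rw [disc_apply] at hst
    push_cast at hst
    rw [← hc] at hst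
    field_simp
    linear_combination (-6) * hst
  obtain ⟨w, hw⟩ := hdiv
  have hk : ∃ k k' : ℤ, w = 2 * k + l * k' := by
    refine ⟨(w - l * (w % 2)) / 2, w % 2, ?_⟩
    have : (l : ℤ) % 2 = 1 := by omega
    rcases Int.emod_two_eq_zero_or_one w with h | h <;> rw [h] <;> omega
  obtain ⟨k, k', hk⟩ := hk
  have hne : ¬ ((l : ℤ) ∣ B x₁ η - u1 - u2 - u1 ∧ (l : ℤ) ∣ u1 - u2) := by
    rw [← ZMod.intCast_zmod_eq_zero_iff_dvd, ← ZMod.intCast_zmod_eq_zero_iff_dvd]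
    push_cast
    rw [hu1, hu2, ← hc]
    rintro ⟨e1, e2⟩
    field_simp at e1 e2
    have ht : t = 0 := by
      have : (2 * 3) * t = 0 := by linear_combination e2
      exact (mul_eq_zero.1 this).resolve_left (mul_ne_zero h2 h3)
    have hs : s = 0 := by
      have : 3 * s = 0 := by rw [ht] at e1; linear_combination e1
      exact (mul_eq_zero.1 this).resolve_left h3
    rw [hs, ht] at hst
    exact mul_ne_zero h2 hx (by linear_combination -hst)
  rcases not_and_or.1 hne with h | h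
  · refine ⟨⟨x₁, big_memx η x₁ l⟩, 0, ![B x₁ η - u1 - u2, u1, u2], ![-1, 1, 0], k, k', ?_, ?_, ?_,
      ?_⟩
    all_goals
      simp [Fin.sum_univ_three]
    · ring
    · rw [hw, hk]; ring
    · intro h'
      refine h ?_
      convert h' using 1
      ring
  · refine ⟨⟨x₁, big_memx η x₁ l⟩, 0, ![B x₁ η - u1 - u2, u1, u2], ![0, -1, 1], k, k', ?_, ?_, ?_,
      ?_⟩
    all_goals
      simp [Fin.sum_univ_three]
    · ring
    · rw [hw, hk]; ring
    · intro h'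
      refine h ?_
      convert h' using 1
      ring

theorem big [Module.Finite ℤ A] (B : LinearMap.BilinForm ℤ A)
    (hB : ∀ x y, B x y = B y x) (η : A) (hη : B η η = 3) (hc : ∀ x, Even (B x x - B x η))
    (hpos : ∀ x, x ≠ 0 → 0 < B x x) (h0 : K0 B η) (hK : ∀ p : ℕ, p.Prime → Kp B η p)
    (h3 : 3 ≤ finrank ℤ A) :
    ∃ (x : A) (a b : ℤ), IsCoprime a b ∧ disc B η x x = 2 * nf a b ∧ ¬ IsSquare (nf a b) ∧
      ¬ IsSquare (3 * nf a b) := by
  obtain ⟨x₀, hx₀⟩ := big_x0 B hB η hη hpos h0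
  obtain ⟨y, hy, hxy⟩ := exists_orth B hB η hpos h3 x₀
  obtain ⟨l, hl, hN, h12, hsq⟩ := big_ell (disc B η x₀ x₀ * disc B η y y).natAbs
  have := Fact.mk hl
  have hu : ((disc B η x₀ x₀ * disc B η y y : ℤ) : ZMod l) ≠ 0 := by
    rw [Ne, ZMod.intCast_zmod_eq_zero_iff_dvd]
    intro h
    have := Nat.le_of_dvd (Int.natAbs_pos.2 (mul_ne_zero hx₀ hy)) (Int.natCast_dvd.1 h)
    omega
  rw [Int.cast_mul] at hu
  have h2 : (2 : ZMod l) ≠ 0 := by
    intro h
    have := Nat.le_of_dvd two_pos ((ZMod.natCast_eq_zero_iff 2 l).1 (by exact_mod_cast h))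
    omega
  obtain ⟨ν, hν⟩ := FiniteField.exists_nonsquare (F := ZMod l)
    (by rw [ZMod.ringChar_zmod_n]; omega)
  have hν0 : ν ≠ 0 := fun h => hν (h ▸ IsSquare.zero)
  obtain ⟨s, t, hst⟩ := big_univ (l := l) (by omega) (left_ne_zero_of_mul hu)
    (right_ne_zero_of_mul hu) (2 * ν)
  obtain ⟨s, rfl⟩ := ZMod.intCast_surjective s
  obtain ⟨t, rfl⟩ := ZMod.intCast_surjective t
  have hD : ∀ x y, disc B η x y = disc B η y x := fun x y => by
    rw [disc_apply, disc_apply, hB x y]; ring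
  have hx₁ : ((disc B η (s • x₀ + t • y) (s • x₀ + t • y) : ℤ) : ZMod l) = 2 * ν := by
    simp only [map_add, map_smul, LinearMap.add_apply, LinearMap.smul_apply, smul_eq_mul,
      hD y x₀, hxy]
    push_cast
    linear_combination hst
  generalize s • x₀ + t • y = x₁ at hx₁
  obtain ⟨⟨x, ⟨z, i, j⟩, rfl⟩, a, b, hab, hx⟩ := core
    (LinearMap.BilinForm.restrict B (LinearMap.range (bigψ η x₁ l))) (fun x y => hB x y)
    ⟨η, big_memη η x₁ l⟩ hη (fun x => hc x) (fun x hx => hpos x fun h => hx (Subtype.ext h))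
    (big_K0 B η x₁ (Int.natCast_ne_zero.2 hl.ne_zero) h0) (fun p hp => by
      by_cases hpl : p = l
      · rw [hpl]
        exact big_Kl B η x₁ hl h12 (by rw [hx₁]; exact mul_ne_zero h2 hν0)
      · exact big_Kp B η x₁ hl hp hpl (hK p hp))
  have hx' : disc B η (bigψ η x₁ l (z, i, j)) (bigψ η x₁ l (z, i, j)) = 2 * nf a b := hx
  have hη' : ∀ x, disc B η η x = 0 := fun x => by rw [disc_apply, hη, hB η x]; ring
  have hnf : ((nf a b : ℤ) : ZMod l) = (j : ZMod l) ^ 2 * ν := by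
    have h := congrArg (Int.cast : ℤ → ZMod l) hx'
    simp only [bigψ_apply, map_add, map_smul, LinearMap.add_apply, LinearMap.smul_apply,
      smul_eq_mul, hη', hD _ η] at h
    push_cast at h
    rw [hx₁, ZMod.natCast_self] at h
    refine mul_left_cancel₀ h2 ?_
    linear_combination -h
  have hj : (j : ZMod l) ≠ 0 := by
    intro h
    rw [h, zero_pow two_ne_zero, zero_mul, ZMod.intCast_zmod_eq_zero_iff_dvd] at hnf
    obtain ⟨ha, hb⟩ := nf_aniso hl (by omega) hnf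
    exact (Nat.prime_iff_prime_int.1 hl).not_isUnit (hab.isUnit_of_dvd' ha hb)
  have hns : ∀ r : ZMod l, r ≠ 0 → ¬ IsSquare (r ^ 2 * ν) := by
    rintro r hr ⟨w, hw⟩
    exact hν ⟨w / r, by field_simp; linear_combination hw⟩
  refine ⟨_, a, b, hab, hx', fun h => hns _ hj (hnf ▸ h.map (Int.castRingHom (ZMod l))),
    fun h => ?_⟩
  obtain ⟨r, hr⟩ := hsq
  have hr0 : r ≠ 0 := by
    rintro rfl
    rw [mul_zero] at hr
    have := Nat.le_of_dvd three_pos ((ZMod.natCast_eq_zero_iff 3 l).1 (by exact_mod_cast hr))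
    omega
  refine hns (r * j) (mul_ne_zero hr0 hj) ?_
  have h' := h.map (Int.castRingHom (ZMod l))
  rw [eq_intCast, Int.cast_mul, hnf, hr] at h'
  rwa [show (r * j) ^ 2 * ν = r * r * ((j : ZMod l) ^ 2 * ν) by ring]

end Vale.Agent.P287Q.Lat
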