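import Vale.Agent.P287Q.Lat.Key
import Vale.Agent.P287Q.Lat.Big

/-! # P287: lattice step, the admissible labelling -/

namespace Vale.Agent.P287Q.Lat

open Module

theorem main_of {A : Type*} [AddCommGroup A] (B : LinearMap.BilinForm ℤ A)
    (hB : ∀ x y, B x y = B y x) (η : A) (hη : B η η = 3) (hc : ∀ x, Even (B x x - B x η))
    (hpos : ∀ x, x ≠ 0 → 0 < B x x) {x : A} {a b : ℤ} (hab : IsCoprime a b)
    (hx : disc B η x x = 2 * nf a b) :
    ∃ v : A, Sat (Submodule.span ℤ {η, v}) ∧ Adm (disc B η v v) ∧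
      (¬ IsSquare (nf a b) → ¬ IsSquare (3 * nf a b) → 6 < disc B η v v) := by
  have h0 : 0 < nf a b := nf_pos hab.ne_zero_or_ne_zero
  obtain ⟨v, m, s, rfl, hs⟩ := exists_sat B hB η hη hpos x (by rw [hx]; omega)
  have hη' : ∀ x, disc B η η x = 0 := fun x => by rw [disc_apply, hη, hB η x]; ring
  have hη'' : ∀ x, disc B η x η = 0 := fun x => by rw [disc_apply, hη]; ring
  simp only [map_add, map_smul, LinearMap.add_apply, LinearMap.smul_apply, smul_eq_mul, hη',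
    hη''] at hx
  have hd : m ^ 2 * disc B η v v = 2 * nf a b := by linear_combination hx
  have hdv : disc B η v v ∣ 2 * nf a b := ⟨m ^ 2, by rw [← hd]; ring⟩
  have hpos' : 0 < disc B η v v := by
    refine lt_of_le_of_ne (disc_nonneg B hB η hη hpos v) fun h => ?_
    rw [← h] at hd
    omega
  have hun : ∀ p : ℕ, p.Prime → p % 3 = 2 → ¬ (p : ℤ) ∣ nf a b := fun p hp h3 h => by
    obtain ⟨ha, hb⟩ := nf_aniso hp h3 h
    exact (Nat.prime_iff_prime_int.1 hp).not_isUnit (hab.isUnit_of_dvd' ha hb)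
  have h6 : disc B η v v % 6 = 0 ∨ disc B η v v % 6 = 2 := by
    obtain ⟨w, hw⟩ := hc v
    obtain ⟨w', hw'⟩ := Int.even_mul_pred_self (B v η)
    have h3 : B v η * B v η % 3 = 0 ∨ B v η * B v η % 3 = 1 := by
      rw [Int.mul_emod]
      have : B v η % 3 = 0 ∨ B v η % 3 = 1 ∨ B v η % 3 = 2 := by omega
      rcases this with h | h | h <;> rw [h] <;> norm_num
    rw [disc_apply]
    rw [mul_sub, mul_one] at hw'
    generalize B v η * B v η = t at hw' h3 ⊢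
    omega
  refine ⟨v, hs, ⟨hpos', h6, fun h => ?_, fun h => ?_, fun p hp h2 h3 h => ?_⟩, fun n1 n3 => ?_⟩
  · obtain ⟨w, hw⟩ := h.trans hdv
    exact hun 2 Nat.prime_two rfl ⟨w, by push_cast; linarith⟩
  · refine nf_nine hab ?_
    obtain ⟨w, hw⟩ := h.trans hdv
    omega
  · have hp' : Prime (p : ℤ) := Nat.prime_iff_prime_int.1 hp
    rcases hp'.dvd_or_dvd (h.trans hdv) with h7 | h7
    · exact h2 ((Nat.prime_dvd_prime_iff_eq hp Nat.prime_two).1 (Int.natCast_dvd_natCast.1 h7))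
    · exact hun p hp h3 h7
  · by_contra hle
    have : disc B η v v = 2 ∨ disc B η v v = 6 := by omega
    rcases this with h | h <;> rw [h] at hd
    · exact n1 ⟨m, by linarith⟩
    · exact n3 ⟨3 * m, by linarith⟩

theorem main_abs {A : Type*} [AddCommGroup A] [Module.Finite ℤ A] (B : LinearMap.BilinForm ℤ A)
    (hB : ∀ x y, B x y = B y x) (η : A) (hη : B η η = 3) (hc : ∀ x, Even (B x x - B x η))
    (hpos : ∀ x, x ≠ 0 → 0 < B x x) (h0 : K0 B η) (hK : ∀ p : ℕ, p.Prime → Kp B η p) :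
    ∃ v : A, Sat (Submodule.span ℤ {η, v}) ∧ Adm (disc B η v v) ∧
      (3 ≤ finrank ℤ A → 6 < disc B η v v) := by
  by_cases h3 : 3 ≤ finrank ℤ A
  · obtain ⟨x, a, b, hab, hx, n1, n3⟩ := big B hB η hη hc hpos h0 hK h3
    obtain ⟨v, h1, h2, h4⟩ := main_of B hB η hη hc hpos hab hx
    exact ⟨v, h1, h2, fun _ => h4 n1 n3⟩
  · obtain ⟨x, a, b, hab, hx⟩ := core B hB η hη hc hpos h0 hK
    obtain ⟨v, h1, h2, -⟩ := main_of B hB η hη hc hpos hab hx
    exact ⟨v, h1, h2, fun h => absurd h h3⟩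

theorem main {L M : Type*} [AddCommGroup L] [Module.Free ℤ L] [Module.Finite ℤ L]
    [AddCommGroup M] [Module.Free ℤ M] [Module.Finite ℤ M]
    (B : LinearMap.BilinForm ℤ L) (hB : ∀ x y, B x y = B y x) (uB : Function.Bijective B)
    (sB : Sig B 21 2) (η : L) (hη : B η η = 3) (A : Submodule ℤ L) (hA : Sat A) (hηA : η ∈ A)
    (hc : ∀ x ∈ A, Even (B x x - B x η)) (hpos : ∀ x ∈ A, x ≠ 0 → 0 < B x x)
    (C : LinearMap.BilinForm ℤ M) (hC : ∀ x y, C x y = C y x) (uC : Function.Bijective C)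
    (n : ℕ) (hn : n ≤ 19) (sC : Sig C 3 n)
    (f : LinearMap.BilinForm.orthogonal B A →ₗ[ℤ] M) (hf : ∀ x y, C (f x) (f y) = - B x y)
    (hi : Function.Injective f) (hs : Sat (LinearMap.range f)) :
    ∃ v ∈ A, Sat (Submodule.span ℤ {η, v}) ∧ Adm (3 * B v v - B v η ^ 2) ∧
      (3 ≤ finrank ℤ A → 6 < 3 * B v v - B v η ^ 2) := by
  obtain ⟨h0, hK⟩ := key B hB uB sB η A hA hηA C hC uC n hn sC f hf hi hs
  obtain ⟨v, h1, h2, h3⟩ := main_abs (LinearMap.BilinForm.restrict B A) (fun x y => hB x y)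
    ⟨η, hηA⟩ hη (fun x => hc x x.2) (fun x hx => hpos x x.2 fun h => hx (Subtype.ext h)) h0 hK
  have e : disc (LinearMap.BilinForm.restrict B A) ⟨η, hηA⟩ v v = 3 * B v v - B v η ^ 2 := by
    rw [disc_apply, sq]; rfl
  rw [e] at h2 h3
  refine ⟨v, v.2, fun k y hk hy => ?_, h2, h3⟩
  obtain ⟨s, t, hst⟩ := Submodule.mem_span_pair.1 hy
  have hyA : y ∈ A := hA k y hk (hst ▸ A.add_mem (A.smul_mem s hηA) (A.smul_mem t v.2))
  obtain ⟨s', t', h⟩ := Submodule.mem_span_pair.1 (h1 k ⟨y, hyA⟩ hk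
    (Submodule.mem_span_pair.2 ⟨s, t, Subtype.ext hst⟩))
  exact Submodule.mem_span_pair.2 ⟨s', t', congrArg Subtype.val h⟩

end Vale.Agent.P287Q.Lat
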