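import Vale.Agent.P287Q.Lat.Defs
import Mathlib.FieldTheory.Finite.Basic

/-! # P287: lattice step, arithmetic of the norm form -/

namespace Vale.Agent.P287Q.Lat

open Module

theorem nf_pos {a b : ℤ} (h : a ≠ 0 ∨ b ≠ 0) : 0 < nf a b := by
  unfold nf
  rcases h with h | h
  · nlinarith [sq_nonneg (a + 2 * b), sq_pos_of_ne_zero h]
  · nlinarith [sq_nonneg (2 * a + b), sq_pos_of_ne_zero h]

theorem ar_zmod {p : ℕ} [Fact p.Prime] (h3 : p % 3 = 2) {x y : ZMod p}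
    (h : x ^ 2 + x * y + y ^ 2 = 0) : y = 0 := by
  by_contra hy
  have hx : x ≠ 0 := by
    rintro rfl
    exact hy (by simpa using h)
  have h1 : (x / y) ^ 3 = 1 := by
    rw [div_pow, div_eq_one_iff_eq (pow_ne_zero 3 hy)]
    linear_combination (x - y) * h
  have h2 : (x / y) ^ (p - 1) = 1 := ZMod.pow_card_sub_one_eq_one (div_ne_zero hx hy)
  have h4 : x / y = 1 := by
    obtain ⟨k, hk⟩ : ∃ k, p - 1 = 3 * k + 1 := ⟨p / 3, by omega⟩
    rwa [hk, pow_succ, pow_mul, h1, one_pow, one_mul] at h2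
  rw [div_eq_one_iff_eq hy] at h4
  subst h4
  have h5 : ((3 : ℕ) : ZMod p) * x ^ 2 = 0 := by
    push_cast
    linear_combination h
  have h6 := (mul_eq_zero.1 h5).resolve_right (pow_ne_zero 2 hx)
  rw [ZMod.natCast_eq_zero_iff] at h6
  have h7 := (Nat.prime_dvd_prime_iff_eq Fact.out Nat.prime_three).1 h6
  omega

theorem nf_aniso {p : ℕ} (hp : p.Prime) (h3 : p % 3 = 2) {a b : ℤ} (h : (p : ℤ) ∣ nf a b) :
    (p : ℤ) ∣ a ∧ (p : ℤ) ∣ b := by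
  haveI : Fact p.Prime := ⟨hp⟩
  rw [← ZMod.intCast_zmod_eq_zero_iff_dvd] at h
  rw [← ZMod.intCast_zmod_eq_zero_iff_dvd, ← ZMod.intCast_zmod_eq_zero_iff_dvd]
  unfold nf at h
  push_cast at h
  exact ⟨ar_zmod h3 (x := (b : ZMod p)) (by linear_combination h), ar_zmod h3 h⟩

theorem nf_nine {a b : ℤ} (h : IsCoprime a b) : ¬ (9 : ℤ) ∣ nf a b := by
  intro h9
  have key : ∀ x y : ZMod 9, x ^ 2 + x * y + y ^ 2 = 0 → 3 * x = 0 ∧ 3 * y = 0 := by decide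
  have h1 : ((nf a b : ℤ) : ZMod 9) = 0 := (ZMod.intCast_zmod_eq_zero_iff_dvd _ 9).2 h9
  unfold nf at h1
  push_cast at h1
  obtain ⟨h2, h4⟩ := key _ _ h1
  have h5 : ((9 : ℕ) : ℤ) ∣ 3 * a :=
    (ZMod.intCast_zmod_eq_zero_iff_dvd _ 9).1 (by push_cast; exact h2)
  have h6 : ((9 : ℕ) : ℤ) ∣ 3 * b :=
    (ZMod.intCast_zmod_eq_zero_iff_dvd _ 9).1 (by push_cast; exact h4)
  have h7 := h.isUnit_of_dvd' (show (3 : ℤ) ∣ a by omega) (show (3 : ℤ) ∣ b by omega)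
  rw [Int.isUnit_iff] at h7
  omega

end Vale.Agent.P287Q.Lat
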