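import Mathlib

/-! # P287: isotropic vectors with coprime pairings against a root lattice of type `A₂` -/

namespace Vale.Agent.P287Q.Lat.Glob

/-- Chinese remainder theorem in an abelian group. -/
theorem crt {N : Type*} [AddCommGroup N] (x : ℕ → N) (j : ℕ → ℕ) (S : Finset ℕ)
    (hS : ∀ p ∈ S, p.Prime) : ∃ (x₀ : N) (M : ℤ),
      (∀ p ∈ S, (p : ℤ) ^ j p ∣ M ∧ ∃ z : N, x₀ = x p + (p : ℤ) ^ j p • z) ∧
      ∀ r : ℕ, r.Prime → r ∉ S → ¬ (r : ℤ) ∣ M := by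
  classical
  induction S using Finset.induction_on with
  | empty =>
    refine ⟨0, 1, fun p hp => absurd hp (Finset.notMem_empty p), fun r hr _ h => ?_⟩
    exact hr.one_lt.ne' (by exact_mod_cast Int.eq_one_of_dvd_one (Int.natCast_nonneg r) h)
  | insert p S hp ih =>
    obtain ⟨x₀, M, h1, h2⟩ := ih fun r hr => hS r (Finset.mem_insert_of_mem hr)
    have hpp : p.Prime := hS p (Finset.mem_insert_self p S)
    have hpi : Prime (p : ℤ) := Nat.prime_iff_prime_int.1 hpp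
    have hco : IsCoprime ((p : ℤ) ^ j p) M :=
      ((Prime.coprime_iff_not_dvd hpi).2 (h2 p hpp hp)).pow_left
    obtain ⟨r, s, hrs⟩ := hco
    refine ⟨(r * (p : ℤ) ^ j p) • x₀ + (s * M) • x p, M * (p : ℤ) ^ j p, fun p' hp' => ?_,
      fun r' hr' hr'S h => ?_⟩
    · rcases Finset.mem_insert.1 hp' with rfl | hp'
      · refine ⟨Dvd.intro_left _ rfl, r • (x₀ - x p'), ?_⟩
        have h3 : s * M = 1 - r * (p' : ℤ) ^ j p' := by linarith
        rw [h3]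
        module
      · obtain ⟨⟨c, hc⟩, z, hz⟩ := h1 p' hp'
        refine ⟨Dvd.dvd.mul_right ⟨c, hc⟩ _, z + (s * c) • (x p - x₀), ?_⟩
        have h3 : r * (p : ℤ) ^ j p = 1 - s * M := by linarith
        have h4 : x p' = x₀ - (p' : ℤ) ^ j p' • z := by rw [hz]; abel
        rw [h3, h4, hc]
        module
    · have hri : Prime (r' : ℤ) := Nat.prime_iff_prime_int.1 hr'
      rcases hri.dvd_or_dvd h with h3 | h3
      · exact h2 r' hr' (fun h4 => hr'S (Finset.mem_insert_of_mem h4)) h3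
      · have h4 : r' ∣ p := by exact_mod_cast hri.dvd_of_dvd_pow h3
        have h5 : r' = p := (Nat.prime_dvd_prime_iff_eq hr' hpp).1 h4
        exact hr'S (h5 ▸ Finset.mem_insert_self p S)

/-- A linear congruence with unit coefficient has a solution. -/
theorem lin_sol {p : ℤ} (hp : Prime p) {a : ℤ} (ha : ¬ p ∣ a) (b : ℤ) : ∃ t, p ∣ b + t * a := by
  obtain ⟨r, s, hrs⟩ := (Prime.coprime_iff_not_dvd hp).2 ha
  refine ⟨-(b * s), b * r, ?_⟩
  linear_combination (-b) * hrs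

variable {N : Type*} [AddCommGroup N] {B : LinearMap.BilinForm ℤ N} {q : N → ℤ}

/-- `B` is symmetric and even with quadratic form `q`. -/
structure Ev (B : LinearMap.BilinForm ℤ N) (q : N → ℤ) : Prop where
  symm : ∀ x y, B x y = B y x
  two : ∀ x, B x x = 2 * q x

theorem Ev.comb (h : Ev B q) (a b : ℤ) (x y : N) :
    q (a • x + b • y) = a ^ 2 * q x + a * b * B x y + b ^ 2 * q y := by
  have h1 := h.two (a • x + b • y)
  simp only [map_add, map_smul, LinearMap.add_apply, LinearMap.smul_apply, smul_eq_mul] at h1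
  rw [h.two x, h.two y, h.symm y x] at h1
  linarith

theorem Ev.add_smul (h : Ev B q) (b : ℤ) (x y : N) :
    q (x + b • y) = q x + b * B x y + b ^ 2 * q y := by
  have h1 := h.comb 1 b x y
  rw [one_smul] at h1
  rw [h1]; ring

theorem pair_add_smul (b : ℤ) (x y z : N) : B (x + b • y) z = B x z + b * B y z := by
  simp only [map_add, map_smul, LinearMap.add_apply, LinearMap.smul_apply, smul_eq_mul]

theorem pair_comb (a b : ℤ) (x y z : N) : B (a • x + b • y) z = a * B x z + b * B y z := by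
  simp only [map_add, map_smul, LinearMap.add_apply, LinearMap.smul_apply, smul_eq_mul]

theorem pair_comb' (a b : ℤ) (x y z : N) : B z (a • x + b • y) = a * B z x + b * B z y := by
  simp only [map_add, map_smul, smul_eq_mul]

/-- The second intersection point of the line through `e` and `x` with the quadric. -/
def U (B : LinearMap.BilinForm ℤ N) (q : N → ℤ) (e x : N) : N := B x e • x + (-q x) • e

theorem pair_U (e x y : N) : B (U B q e x) y = B x e * B x y - q x * B e y := by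
  rw [U, pair_comb]; ring

theorem Ev.q_U (h : Ev B q) {e : N} (he : q e = 0) (x : N) : q (U B q e x) = 0 := by
  rw [U, h.comb, he]; ring

theorem Ev.U_e (h : Ev B q) {e : N} (he : q e = 0) (x : N) : B (U B q e x) e = B x e ^ 2 := by
  rw [pair_U, h.two e, he]; ring

/-- A singular vector modulo `p` which pairs to a unit with one of the two roots. -/
theorem Ev.loc_one (h : Ev B q) {l₁ l₂ : N} (h12 : B l₁ l₂ = -1) {p : ℤ} (hp : Prime p) {x y : N}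
    (hx : p ∣ q x) (hxy : ¬ p ∣ B x y) : ∃ z, p ∣ q z ∧ ¬ (p ∣ B z l₁ ∧ p ∣ B z l₂) := by
  by_cases h1 : p ∣ B x l₁ ∧ p ∣ B x l₂
  swap
  · exact ⟨x, hx, h1⟩
  have key : ∀ y : N, ¬ p ∣ B x y → ¬ (p ∣ B y l₁ ∧ p ∣ B y l₂) →
      ∃ z, p ∣ q z ∧ ¬ (p ∣ B z l₁ ∧ p ∣ B z l₂) := by
    intro y hxy hy
    obtain ⟨t, ht⟩ := lin_sol hp hxy (q y)
    refine ⟨y + t • x, ?_, fun h2 => hy ⟨?_, ?_⟩⟩
    · rw [h.add_smul, h.symm y x]
      exact dvd_add ht (Dvd.dvd.mul_left hx _)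
    · have h3 := h2.1
      rw [pair_add_smul] at h3
      exact (dvd_add_left (Dvd.dvd.mul_left h1.1 _)).1 h3
    · have h3 := h2.2
      rw [pair_add_smul] at h3
      exact (dvd_add_left (Dvd.dvd.mul_left h1.2 _)).1 h3
  by_cases h2 : p ∣ B y l₁ ∧ p ∣ B y l₂
  swap
  · exact key y hxy h2
  refine key (y + l₁) (fun h3 => hxy ?_) fun h3 => ?_
  · rw [map_add] at h3
    exact (dvd_add_left h1.1).1 h3
  · have h4 := h3.2
    rw [map_add, LinearMap.add_apply, h12] at h4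
    exact hp.not_dvd_one ((dvd_neg).1 ((dvd_add_right h2.2).1 h4))

/-- Hensel's lemma along a root. -/
theorem Ev.hensel (h : Ev B q) {l : N} (hl : q l = 1) {p : ℤ} (hp : Prime p) {x : N}
    (hx : p ∣ q x) (hxl : ¬ p ∣ B x l) (k : ℕ) : ∃ z, p ^ (k + 1) ∣ q z ∧ ¬ p ∣ B z l := by
  induction k with
  | zero => exact ⟨x, by rwa [zero_add, pow_one], hxl⟩
  | succ k ih =>
    obtain ⟨z, ⟨c, hc⟩, hz⟩ := ih
    obtain ⟨t, s, hs⟩ := lin_sol hp hz c
    refine ⟨z + (p ^ (k + 1) * t) • l, ⟨s + p ^ k * t ^ 2, ?_⟩, fun h1 => hz ?_⟩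
    · rw [h.add_smul, hl, hc]
      linear_combination p ^ (k + 1) * hs
    · rw [pair_add_smul] at h1
      refine (dvd_add_left ?_).1 h1
      exact ⟨p ^ k * t * B l l, by ring⟩

/-- The local condition at a prime, stable under small perturbations. -/
theorem Ev.loc_two (h : Ev B q) {l₁ l₂ e : N} (h1 : q l₁ = 1) (h2 : q l₂ = 1)
    (h12 : B l₁ l₂ = -1) (he : ¬ (B e l₁ = 0 ∧ B e l₂ = 0)) {p : ℤ} (hp : Prime p) {x y : N}
    (hx : p ∣ q x) (hxy : ¬ p ∣ B x y) : ∃ (x₀ : N) (j : ℕ), ∀ z : N,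
      B (x₀ + p ^ j • z) e ≠ 0 ∧ ∀ k : ℕ, p ^ k ∣ B (U B q e (x₀ + p ^ j • z)) l₁ →
        p ^ k ∣ B (U B q e (x₀ + p ^ j • z)) l₂ →
          p ^ k ∣ B (x₀ + p ^ j • z) e ∧ p ^ k ∣ q (x₀ + p ^ j • z) := by
  obtain ⟨x₁, hx₁, hx₁l⟩ := h.loc_one h12 hp hx hxy
  obtain ⟨a, b, hl, hxl, hel⟩ : ∃ a b : ℤ, q (a • l₁ + b • l₂) = 1 ∧
      ¬ p ∣ B x₁ (a • l₁ + b • l₂) ∧ B e (a • l₁ + b • l₂) ≠ 0 := by
    simp only [h.comb, pair_comb', h1, h2, h12]
    by_contra hc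
    push Not at hc
    have c1 := hc 1 0 (by ring)
    have c2 := hc 0 1 (by ring)
    have c3 := hc 1 1 (by ring)
    simp only [one_mul, zero_mul, add_zero, zero_add] at c1 c2 c3
    by_cases d1 : p ∣ B x₁ l₁
    · have d2 : ¬ p ∣ B x₁ l₂ := fun d2 => hx₁l ⟨d1, d2⟩
      have d3 : ¬ p ∣ B x₁ l₁ + B x₁ l₂ := fun d3 => d2 ((dvd_add_right d1).1 d3)
      have e2 := c2 d2
      have e3 := c3 d3
      exact he ⟨by linarith, e2⟩
    · by_cases d2 : p ∣ B x₁ l₂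
      · have d3 : ¬ p ∣ B x₁ l₁ + B x₁ l₂ := fun d3 => d1 ((dvd_add_left d2).1 d3)
        have e1 := c1 d1
        have e3 := c3 d3
        exact he ⟨e1, by linarith⟩
      · exact he ⟨c1 d1, c2 d2⟩
  set l : N := a • l₁ + b • l₂ with hld
  obtain ⟨k₀, hk₀⟩ : ∃ k₀ : ℕ, ¬ p ^ (k₀ + 1) ∣ B e l := by
    by_contra hc
    push Not at hc
    have h3 : FiniteMultiplicity p (B e l) := FiniteMultiplicity.of_prime_left hp hel
    obtain ⟨n, hn⟩ := h3
    exact hn (hc n)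
  obtain ⟨x₂, hq₂, hl₂, he₂⟩ : ∃ x₂, p ^ (k₀ + 1) ∣ q x₂ ∧ ¬ p ∣ B x₂ l ∧
      ¬ p ^ (k₀ + 1) ∣ B x₂ e := by
    obtain ⟨z, hz, hzl⟩ := h.hensel hl hp hx₁ hxl k₀
    by_cases hze : p ^ (k₀ + 1) ∣ B z e
    swap
    · exact ⟨z, hz, hzl, hze⟩
    refine ⟨z + (-B z l) • l, ?_, fun h3 => hzl ?_, fun h3 => hk₀ ?_⟩
    · rw [h.add_smul, hl]
      have h3 : q z + -B z l * B z l + (-B z l) ^ 2 * 1 = q z := by ring
      rwa [h3]
    · rw [pair_add_smul, h.two l, hl] at h3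
      have h4 : B z l + -B z l * (2 * 1) = -B z l := by ring
      rw [h4] at h3
      exact (dvd_neg).1 h3
    · rw [pair_add_smul] at h3
      have h4 := (dvd_add_right hze).1 h3
      rw [neg_mul, dvd_neg, h.symm l e] at h4
      exact hp.pow_dvd_of_dvd_mul_left _ hzl h4
  refine ⟨x₂, k₀ + 1, fun z => ?_⟩
  set x' : N := x₂ + p ^ (k₀ + 1) • z with hx'
  have hq' : p ^ (k₀ + 1) ∣ q x' := by
    rw [hx', h.add_smul]
    exact dvd_add (dvd_add hq₂ (Dvd.intro _ rfl)) ⟨p ^ (k₀ + 1) * q z, by ring⟩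
  have hl' : ¬ p ∣ B x' l := fun h3 => hl₂ (by
    rw [hx', pair_add_smul] at h3
    exact (dvd_add_left ⟨p ^ k₀ * B z l, by ring⟩).1 h3)
  have he' : ¬ p ^ (k₀ + 1) ∣ B x' e := fun h3 => he₂ (by
    rw [hx', pair_add_smul] at h3
    exact (dvd_add_left (Dvd.intro _ rfl)).1 h3)
  refine ⟨fun h3 => he' (h3 ▸ dvd_zero _), fun k hk1 hk2 => ?_⟩
  have h3 : p ^ k ∣ B x' e * B x' l - q x' * B e l := by
    rw [← pair_U, hld, pair_comb']
    exact dvd_add (Dvd.dvd.mul_left hk1 _) (Dvd.dvd.mul_left hk2 _)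
  have key : ∀ i : ℕ, i ≤ k → i ≤ k₀ + 1 → p ^ i ∣ B x' e := fun i hi1 hi2 => by
    have h4 : p ^ i ∣ B x' e * B x' l - q x' * B e l := (pow_dvd_pow p hi1).trans h3
    have h5 : p ^ i ∣ q x' * B e l := Dvd.dvd.mul_right ((pow_dvd_pow p hi2).trans hq') _
    have h6 : p ^ i ∣ B x' e * B x' l := by
      have h7 := dvd_add h4 h5
      rwa [sub_add_cancel] at h7
    exact hp.pow_dvd_of_dvd_mul_right _ hl' h6
  rcases le_total k (k₀ + 1) with hk | hk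
  · exact ⟨key k le_rfl hk, (pow_dvd_pow p hk).trans hq'⟩
  · exact absurd (key (k₀ + 1) hk le_rfl) he'

/-- If the common prime power divisors of the two pairings of `U x` divide the coefficients, then
`U x` is a multiple of an isotropic vector with coprime pairings. -/
theorem Ev.fin (h : Ev B q) {l₁ l₂ e x : N} (he : q e = 0)
    (hne : ¬ (B (U B q e x) l₁ = 0 ∧ B (U B q e x) l₂ = 0))
    (hx : ∀ p k : ℕ, p.Prime → (p : ℤ) ^ k ∣ B (U B q e x) l₁ → (p : ℤ) ^ k ∣ B (U B q e x) l₂ →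
      (p : ℤ) ^ k ∣ B x e ∧ (p : ℤ) ^ k ∣ q x) :
    ∃ (u : N) (g : ℤ), g ≠ 0 ∧ U B q e x = g • u ∧ q u = 0 ∧ IsCoprime (B u l₁) (B u l₂) := by
  set g : ℕ := Int.gcd (B (U B q e x) l₁) (B (U B q e x) l₂) with hg
  have hg0 : g ≠ 0 := fun h0 => hne (Int.gcd_eq_zero_iff.1 h0)
  have hg0' : (g : ℤ) ≠ 0 := by exact_mod_cast hg0
  have hdv : ∀ n : ℤ, (∀ p k : ℕ, p.Prime → (p : ℤ) ^ k ∣ B (U B q e x) l₁ →
      (p : ℤ) ^ k ∣ B (U B q e x) l₂ → (p : ℤ) ^ k ∣ n) → (g : ℤ) ∣ n := by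
    intro n hn
    rw [Int.natCast_dvd, Nat.dvd_iff_prime_pow_dvd_dvd]
    intro p k hp hpk
    have h1 : (p : ℤ) ^ k ∣ (g : ℤ) := by exact_mod_cast hpk
    have h2 := hn p k hp (h1.trans (Int.gcd_dvd_left _ _)) (h1.trans (Int.gcd_dvd_right _ _))
    rw [← Int.natCast_dvd]
    exact_mod_cast h2
  obtain ⟨a, ha⟩ := hdv (B x e) fun p k hp h1 h2 => (hx p k hp h1 h2).1
  obtain ⟨b, hb⟩ := hdv (q x) fun p k hp h1 h2 => (hx p k hp h1 h2).2
  have hU : U B q e x = (g : ℤ) • (a • x + (-b) • e) := by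
    rw [U, ha, hb]
    module
  refine ⟨a • x + (-b) • e, g, hg0', hU, ?_, ?_⟩
  · have h1 := h.q_U he x
    have h2 := h.comb g 0 (a • x + (-b) • e) e
    rw [zero_smul, add_zero, ← hU, h1] at h2
    have h3 : (g : ℤ) ^ 2 * q (a • x + (-b) • e) = 0 := by linarith
    exact (mul_eq_zero.1 h3).resolve_left (pow_ne_zero _ hg0')
  · have h1 : ∀ y, B (U B q e x) y = g * B (a • x + (-b) • e) y := fun y => by
      rw [hU, map_smul, LinearMap.smul_apply, smul_eq_mul]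
    rw [Int.isCoprime_iff_gcd_eq_one]
    have h2 := hg
    rw [h1, h1, Int.gcd_mul_left, Int.natAbs_natCast] at h2
    exact Nat.eq_of_mul_eq_mul_left (Nat.pos_of_ne_zero hg0) (by rw [mul_one]; exact h2.symm)

/-- A cubic polynomial with unit leading coefficient has a non-root modulo a prime `p ≥ 5`. -/
theorem avoid {p : ℤ} (hp : Prime p) {a₀ a₁ a₂ b₀ b₁ : ℤ} (h6 : ¬ p ∣ 6) (ha : ¬ p ∣ a₂)
    (hb : ¬ p ∣ b₁) : ∃ t : ℤ, ¬ p ∣ a₀ + a₁ * t + a₂ * t ^ 2 ∧ ¬ p ∣ b₀ + b₁ * t := by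
  by_contra hc
  push Not at hc
  have h1 : ∀ t : ℤ, p ∣ (a₀ + a₁ * t + a₂ * t ^ 2) * (b₀ + b₁ * t) := fun t => by
    by_cases h : p ∣ a₀ + a₁ * t + a₂ * t ^ 2
    · exact Dvd.dvd.mul_right h _
    · exact Dvd.dvd.mul_left (hc t h) _
  have h2 : p ∣ 6 * (a₂ * b₁) := by
    have h3 := dvd_sub (dvd_add (dvd_sub (h1 3) (Dvd.dvd.mul_left (h1 2) 3))
      (Dvd.dvd.mul_left (h1 1) 3)) (h1 0)
    have h4 : (a₀ + a₁ * 3 + a₂ * 3 ^ 2) * (b₀ + b₁ * 3) -
        3 * ((a₀ + a₁ * 2 + a₂ * 2 ^ 2) * (b₀ + b₁ * 2)) +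
        3 * ((a₀ + a₁ * 1 + a₂ * 1 ^ 2) * (b₀ + b₁ * 1)) -
        (a₀ + a₁ * 0 + a₂ * 0 ^ 2) * (b₀ + b₁ * 0) = 6 * (a₂ * b₁) := by ring
    rwa [h4] at h3
  rcases hp.dvd_or_dvd h2 with h3 | h3
  · exact h6 h3
  · rcases hp.dvd_or_dvd h3 with h4 | h4
    · exact ha h4
    · exact hb h4

/-- The global step, with an additional congruence condition at a finite set of primes. -/
theorem Ev.glob_aux (h : Ev B q) {l₁ l₂ e : N} (h1 : q l₁ = 1) (h2 : q l₂ = 1)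
    (h12 : B l₁ l₂ = -1) (han : ∀ u, q u = 0 → B u l₁ = 0 → B u l₂ = 0 → ∀ y, B u y = 0)
    (he : q e = 0) (he' : ∃ y, B e y ≠ 0) (P : ℕ → N → Prop) (S₀ : Finset ℕ)
    (hS₀ : ∀ p ∈ S₀, p.Prime)
    (hloc : ∀ p : ℕ, p.Prime → ∃ (x₀ : N) (j : ℕ), ∀ z : N, P p (x₀ + (p : ℤ) ^ j • z) ∧
      B (x₀ + (p : ℤ) ^ j • z) e ≠ 0 ∧ ∀ k : ℕ,
        (p : ℤ) ^ k ∣ B (U B q e (x₀ + (p : ℤ) ^ j • z)) l₁ →
        (p : ℤ) ^ k ∣ B (U B q e (x₀ + (p : ℤ) ^ j • z)) l₂ →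
          (p : ℤ) ^ k ∣ B (x₀ + (p : ℤ) ^ j • z) e ∧ (p : ℤ) ^ k ∣ q (x₀ + (p : ℤ) ^ j • z)) :
    ∃ (x u : N) (g : ℤ), (∀ p ∈ S₀, P p x) ∧ g ≠ 0 ∧ U B q e x = g • u ∧ q u = 0 ∧
      IsCoprime (B u l₁) (B u l₂) := by
  classical
  have hm : ¬ (B e l₁ = 0 ∧ B e l₂ = 0) := fun hm => by
    obtain ⟨y, hy⟩ := he'
    exact hy (han e he hm.1 hm.2 y)
  set m₁ : ℤ := B e l₁ with hm₁
  set m₂ : ℤ := B e l₂ with hm₂
  set l : N := m₂ • l₁ + (-m₁) • l₂ with hl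
  set l' : N := m₁ • l₁ + m₂ • l₂ with hl'
  set n : ℤ := m₁ ^ 2 + m₁ * m₂ + m₂ ^ 2 with hn
  set g₀ : ℤ := m₁ ^ 2 + m₂ ^ 2 with hg₀
  have hg₀0 : g₀ ≠ 0 := fun h0 => hm ⟨by nlinarith [sq_nonneg m₁, sq_nonneg m₂],
    by nlinarith [sq_nonneg m₁, sq_nonneg m₂]⟩
  have hn0 : n ≠ 0 := fun h0 => hg₀0 (by nlinarith [sq_nonneg (m₁ + m₂), sq_nonneg m₁, sq_nonneg m₂])
  have hql : q l = n := by rw [hl, h.comb, h1, h2, h12, hn]; ring
  have hel : B e l = 0 := by rw [hl, pair_comb']; ring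
  have hel' : B e l' = g₀ := by rw [hl', pair_comb', hg₀]; ring
  have hzero : ∀ y, B y e ≠ 0 → ¬ (B (U B q e y) l₁ = 0 ∧ B (U B q e y) l₂ = 0) := by
    intro y hy h3
    have h4 := han _ (h.q_U he y) h3.1 h3.2 e
    rw [h.U_e he] at h4
    exact hy (pow_eq_zero_iff two_ne_zero |>.1 h4)
  choose! xl j hxl using hloc
  set K : ℕ := (6 * n * g₀).natAbs with hK
  have hK0 : K ≠ 0 := Int.natAbs_ne_zero.2 (mul_ne_zero (mul_ne_zero (by norm_num) hn0) hg₀0)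
  set S : Finset ℕ := K.primeFactors ∪ S₀ with hS
  have hSp : ∀ p ∈ S, p.Prime := fun p hp => by
    rcases Finset.mem_union.1 hp with h3 | h3
    · exact Nat.prime_of_mem_primeFactors h3
    · exact hS₀ p h3
  have hSK : ∀ p : ℕ, p.Prime → (p : ℤ) ∣ 6 * n * g₀ → p ∈ S := fun p hp h3 =>
    Finset.mem_union_left _ (Nat.mem_primeFactors.2 ⟨hp, Int.natCast_dvd.1 h3, hK0⟩)
  obtain ⟨x₀, M, hx₀, hM⟩ := crt xl j S hSp
  have hxt : ∀ p ∈ S, ∀ t : ℤ, ∃ z : N, x₀ + (M * t) • l = xl p + (p : ℤ) ^ j p • z := by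
    intro p hp t
    obtain ⟨⟨c, hc⟩, z, hz⟩ := hx₀ p hp
    refine ⟨z + (c * t) • l, ?_⟩
    rw [hz, hc]
    module
  have hα : B x₀ e ≠ 0 := by
    have h3 : 2 ∈ S := hSK 2 Nat.prime_two ⟨3 * n * g₀, by push_cast; ring⟩
    obtain ⟨_, z, hz⟩ := hx₀ 2 h3
    rw [hz]
    exact (hxl 2 Nat.prime_two z).2.1
  have hle : B l e = 0 := by rw [h.symm, hel]
  have hll : B l l = 2 * n := by rw [h.two, hql]
  set y : N := (2 * n) • x₀ + (-B x₀ l) • l with hy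
  have hye : B y e = 2 * n * B x₀ e := by rw [hy, pair_comb, hle]; ring
  have hyl : B y l = 0 := by rw [hy, pair_comb, hll]; ring
  set R : ℤ := B (U B q e y) l' with hR
  have hR0 : R ≠ 0 := fun h0 => by
    have h3 : B (U B q e y) l = 0 := by rw [pair_U, hyl, hel]; ring
    rw [hR, hl', pair_comb'] at h0
    rw [hl, pair_comb'] at h3
    refine hzero y (by rw [hye]; exact mul_ne_zero (mul_ne_zero two_ne_zero hn0) hα) ⟨?_, ?_⟩
    · have h4 : g₀ * B (U B q e y) l₁ = 0 := by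
        rw [hg₀]; linear_combination m₁ * h0 + m₂ * h3
      exact (mul_eq_zero.1 h4).resolve_left hg₀0
    · have h4 : g₀ * B (U B q e y) l₂ = 0 := by
        rw [hg₀]; linear_combination m₂ * h0 - m₁ * h3
      exact (mul_eq_zero.1 h4).resolve_left hg₀0
  have hav : ∀ p : ℕ, p.Prime → p ∉ S → ∃ t : ℤ,
      ¬ (p : ℤ) ∣ q x₀ + (M * B x₀ l) * t + (M ^ 2 * n) * t ^ 2 ∧
      ¬ (p : ℤ) ∣ B x₀ l + (M * (2 * n)) * t := by
    intro p hp hpS
    have hpi : Prime (p : ℤ) := Nat.prime_iff_prime_int.1 hp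
    have h6 : ¬ (p : ℤ) ∣ 6 := fun h3 =>
      hpS (hSK p hp (Dvd.dvd.mul_right (Dvd.dvd.mul_right h3 _) _))
    have hpn : ¬ (p : ℤ) ∣ n := fun h3 =>
      hpS (hSK p hp (Dvd.dvd.mul_right (Dvd.dvd.mul_left h3 _) _))
    have hpM := hM p hp hpS
    refine avoid hpi h6 (fun h3 => ?_) fun h3 => ?_
    · rcases hpi.dvd_or_dvd h3 with h4 | h4
      · exact hpM (hpi.dvd_of_dvd_pow h4)
      · exact hpn h4
    · rcases hpi.dvd_or_dvd h3 with h4 | h4
      · exact hpM h4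
      · rcases hpi.dvd_or_dvd h4 with h5 | h5
        · exact h6 (h5.trans ⟨3, by norm_num⟩)
        · exact hpn h5
  choose! tl htl using hav
  set S' : Finset ℕ := (B x₀ e * R).natAbs.primeFactors \ S with hS'
  obtain ⟨t, M', ht, -⟩ := crt tl (fun _ => 1) S' fun p hp =>
    Nat.prime_of_mem_primeFactors (Finset.mem_sdiff.1 hp).1
  set x : N := x₀ + (M * t) • l with hx
  have hxe : B x e = B x₀ e := by rw [hx, pair_add_smul, hle]; ring
  have hxl' : B x l = B x₀ l + (M * (2 * n)) * t := by rw [hx, pair_add_smul, hll]; ring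
  have hqx : q x = q x₀ + (M * B x₀ l) * t + (M ^ 2 * n) * t ^ 2 := by
    rw [hx, h.add_smul, hql]; ring
  have hout : ∀ p : ℕ, p.Prime → p ∉ S → (p : ℤ) ∣ B (U B q e x) l₁ →
      (p : ℤ) ∣ B (U B q e x) l₂ → False := by
    intro p hp hpS d1 d2
    have hpi : Prime (p : ℤ) := Nat.prime_iff_prime_int.1 hp
    have d3 : (p : ℤ) ∣ B x e * B x l := by
      have h3 : B (U B q e x) l = B x e * B x l := by rw [pair_U, hel]; ring
      rw [← h3, hl, pair_comb']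
      exact dvd_add (Dvd.dvd.mul_left d1 _) (Dvd.dvd.mul_left d2 _)
    have d4 : (p : ℤ) ∣ B x e * B x l' - q x * g₀ := by
      rw [← hel', ← pair_U, hl', pair_comb']
      exact dvd_add (Dvd.dvd.mul_left d1 _) (Dvd.dvd.mul_left d2 _)
    have hgood : (p : ℤ) ∣ B x₀ e * R → ¬ (p : ℤ) ∣ q x ∧ ¬ (p : ℤ) ∣ B x l := by
      intro h3
      have h4 : p ∈ S' := Finset.mem_sdiff.2 ⟨Nat.mem_primeFactors.2 ⟨hp, Int.natCast_dvd.1 h3,
        Int.natAbs_ne_zero.2 (mul_ne_zero hα hR0)⟩, hpS⟩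
      obtain ⟨_, s, hs⟩ := ht p h4
      obtain ⟨h5, h6⟩ := htl p hp hpS
      rw [pow_one, smul_eq_mul] at hs
      refine ⟨fun h7 => h5 ?_, fun h7 => h6 ?_⟩
      · rw [hqx, hs] at h7
        have h8 : q x₀ + M * B x₀ l * (tl p + p * s) + M ^ 2 * n * (tl p + p * s) ^ 2 =
            q x₀ + M * B x₀ l * tl p + M ^ 2 * n * tl p ^ 2 +
              p * (M * B x₀ l * s + M ^ 2 * n * (2 * tl p * s + p * s ^ 2)) := by ring
        rw [h8] at h7
        exact (dvd_add_left (Dvd.intro _ rfl)).1 h7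
      · rw [hxl', hs] at h7
        have h8 : B x₀ l + M * (2 * n) * (tl p + p * s) =
            B x₀ l + M * (2 * n) * tl p + p * (M * (2 * n) * s) := by ring
        rw [h8] at h7
        exact (dvd_add_left (Dvd.intro _ rfl)).1 h7
    rcases hpi.dvd_or_dvd d3 with d5 | d5
    · have h3 : (p : ℤ) ∣ q x * g₀ := by
        have h4 := dvd_sub (Dvd.dvd.mul_right d5 (B x l')) d4
        rwa [sub_sub_cancel] at h4
      rcases hpi.dvd_or_dvd h3 with h4 | h4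
      · exact (hgood (Dvd.dvd.mul_right (hxe ▸ d5) _)).1 h4
      · exact hpS (hSK p hp (Dvd.dvd.mul_left h4 _))
    · refine (hgood (Dvd.dvd.mul_left ?_ _)).2 d5
      have h3 : y = (2 * n) • x + (-B x l) • l := by
        rw [hxl', hy, hx]
        module
      have h4 : R = 4 * n ^ 2 * (B x e * B x l' - q x * g₀) +
          B x l * (n * B x l * g₀ - 2 * n * B x e * B l l') := by
        rw [hR, pair_U, hel', hye, ← hxe, h3, pair_comb, h.comb, hql]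
        ring
      rw [h4]
      exact dvd_add (Dvd.dvd.mul_left d4 _) (Dvd.dvd.mul_right d5 _)
  obtain ⟨u, g, hg, hu, hqu, hco⟩ := h.fin (l₁ := l₁) (l₂ := l₂) (x := x) he
    (hzero x (by rw [hxe]; exact hα)) fun p k hp d1 d2 => by
      by_cases hpS : p ∈ S
      · obtain ⟨z, hz⟩ := hxt p hpS t
        rw [← hx] at hz
        rw [hz] at d1 d2 ⊢
        exact (hxl p hp z).2.2 k d1 d2
      · rcases Nat.eq_zero_or_pos k with rfl | hk
        · rw [pow_zero]; exact ⟨one_dvd _, one_dvd _⟩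
        · exact (hout p hp hpS ((dvd_pow_self _ hk.ne').trans d1)
            ((dvd_pow_self _ hk.ne').trans d2)).elim
  refine ⟨x, u, g, fun p hp => ?_, hg, hu, hqu, hco⟩
  obtain ⟨z, hz⟩ := hxt p (Finset.mem_union_right _ hp) t
  rw [← hx] at hz
  rw [hz]
  exact (hxl p (hS₀ p hp) z).1

/-- **Global step.** An even lattice containing `A₂` with anisotropic complement, which is isotropic
and contains a hyperbolic plane modulo every prime, has an isotropic vector whose pairings with the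
two simple roots are coprime. -/
theorem Ev.glob (h : Ev B q) {l₁ l₂ e : N} (h1 : q l₁ = 1) (h2 : q l₂ = 1)
    (h12 : B l₁ l₂ = -1) (han : ∀ u, q u = 0 → B u l₁ = 0 → B u l₂ = 0 → ∀ y, B u y = 0)
    (he : q e = 0) (he' : ∃ y, B e y ≠ 0)
    (hloc : ∀ p : ℕ, p.Prime → ∃ x y : N, (p : ℤ) ∣ q x ∧ ¬ (p : ℤ) ∣ B x y) :
    ∃ u : N, q u = 0 ∧ IsCoprime (B u l₁) (B u l₂) := by
  have hm : ¬ (B e l₁ = 0 ∧ B e l₂ = 0) := fun hm => by
    obtain ⟨y, hy⟩ := he'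
    exact hy (han e he hm.1 hm.2 y)
  obtain ⟨_, u, _, _, _, _, hu, hco⟩ := h.glob_aux h1 h2 h12 han he he' (fun _ _ => True) ∅
    (fun p hp => absurd hp (Finset.notMem_empty p)) fun p hp => by
      obtain ⟨x, y, hx, hxy⟩ := hloc p hp
      obtain ⟨x₀, j, hj⟩ := h.loc_two h1 h2 h12 hm (Nat.prime_iff_prime_int.1 hp) hx hxy
      exact ⟨x₀, j, fun z => ⟨trivial, hj z⟩⟩
  exact ⟨u, hu, hco⟩

end Vale.Agent.P287Q.Lat.Glob
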