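import Vale.Agent.P287Q.Lat.Ar
import Vale.Agent.P287Q.Lat.Glob

/-! # P287: lattice step, a primitive representation by the norm form -/

namespace Vale.Agent.P287Q.Lat

open Module

variable {A : Type*} [AddCommGroup A]

/-- The form `u · u' - x · x'` on triples `(x, u₁, u₂)`, with `u₀ = x · η - u₁ - u₂`. -/
def coreB (B : LinearMap.BilinForm ℤ A) (η : A) : LinearMap.BilinForm ℤ (A × ℤ × ℤ) :=
  LinearMap.mk₂ ℤ (fun d e => (B d.1 η - d.2.1 - d.2.2) * (B e.1 η - e.2.1 - e.2.2) +
      d.2.1 * e.2.1 + d.2.2 * e.2.2 - B d.1 e.1)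
    (fun x x' y => by
      simp only [Prod.fst_add, Prod.snd_add, map_add, LinearMap.add_apply]; ring)
    (fun c x y => by
      simp only [Prod.smul_fst, Prod.smul_snd, map_smul, LinearMap.smul_apply, smul_eq_mul]; ring)
    (fun x y y' => by
      simp only [Prod.fst_add, Prod.snd_add, map_add, LinearMap.add_apply]; ring)
    (fun c x y => by
      simp only [Prod.smul_fst, Prod.smul_snd, map_smul, LinearMap.smul_apply, smul_eq_mul]; ring)

theorem coreB_apply (B : LinearMap.BilinForm ℤ A) (η : A) (d e : A × ℤ × ℤ) :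
    coreB B η d e = (B d.1 η - d.2.1 - d.2.2) * (B e.1 η - e.2.1 - e.2.2) +
      d.2.1 * e.2.1 + d.2.2 * e.2.2 - B d.1 e.1 := rfl

theorem coreB_of (B : LinearMap.BilinForm ℤ A) (η x x' : A) (u u' : Fin 3 → ℤ)
    (h : ∑ i, u i = B x η) (h' : ∑ i, u' i = B x' η) :
    coreB B η (x, u 1, u 2) (x', u' 1, u' 2) = - (B x x' - ∑ i, u i * u' i) := by
  simp only [Fin.sum_univ_three] at h h' ⊢
  rw [coreB_apply, ← h, ← h']
  ring

theorem coreB_even (B : LinearMap.BilinForm ℤ A) (η : A) (hc : ∀ x, Even (B x x - B x η))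
    (d : A × ℤ × ℤ) : coreB B η d d = 2 * (coreB B η d d / 2) := by
  refine (Int.mul_ediv_cancel' (even_iff_two_dvd.1 ?_)).symm
  have h1 := Int.even_mul_pred_self (B d.1 η - d.2.1 - d.2.2)
  have h2 := Int.even_mul_pred_self d.2.1
  have h3 := Int.even_mul_pred_self d.2.2
  have h := ((h1.add h2).add h3).sub (hc d.1)
  rw [coreB_apply]
  obtain ⟨w, hw⟩ := h
  exact ⟨w, by linear_combination hw⟩

theorem core (B : LinearMap.BilinForm ℤ A)
    (hB : ∀ x y, B x y = B y x) (η : A) (hη : B η η = 3) (hc : ∀ x, Even (B x x - B x η))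
    (hpos : ∀ x, x ≠ 0 → 0 < B x x) (h0 : K0 B η) (hK : ∀ p : ℕ, p.Prime → Kp B η p) :
    ∃ (x : A) (a b : ℤ), IsCoprime a b ∧ disc B η x x = 2 * nf a b := by
  have hE : Glob.Ev (coreB B η) (fun d => coreB B η d d / 2) :=
    ⟨fun d e => by rw [coreB_apply, coreB_apply, hB d.1 e.1]; ring, coreB_even B η hc⟩
  have l1 : ∀ d, coreB B η d (0, -1, 0) = (B d.1 η - d.2.1 - d.2.2) - d.2.1 := fun d => by
    simp [coreB_apply]; ring
  have l2 : ∀ d, coreB B η d (0, 1, -1) = d.2.1 - d.2.2 := fun d => by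
    simp [coreB_apply]; ring
  obtain ⟨x, x', u, u', h1, h2, h3, h4⟩ := h0
  obtain ⟨⟨z, s, t⟩, hz, hco⟩ := hE.glob (l₁ := (0, -1, 0)) (l₂ := (0, 1, -1))
    (e := (x, u 1, u 2)) (by simp [coreB_apply]) (by simp [coreB_apply]) (by simp [coreB_apply])
    (by
      rintro ⟨z, s, t⟩ hq e1 e2 ⟨z', s', t'⟩
      have hq' := coreB_even B η hc (z, s, t)
      rw [hq, coreB_apply] at hq'
      rw [l1] at e1
      rw [l2] at e2
      simp only at hq' e1 e2
      obtain rfl : t = s := by linarith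
      have e3 : B z η = 3 * t := by linarith
      have hz : z - t • η = 0 := by
        by_contra hne
        have := hpos _ hne
        simp only [map_sub, map_smul, LinearMap.sub_apply, LinearMap.smul_apply, smul_eq_mul,
          hB η z, hη] at this
        rw [e3] at this hq'
        nlinarith
      rw [coreB_apply]
      simp only
      rw [e3, sub_eq_zero.1 hz, map_smul, LinearMap.smul_apply, smul_eq_mul, hB η z']
      ring)
    (by rw [coreB_of B η x x u u h1 h1, h3]; simp)
    ⟨(x', u' 1, u' 2), by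
      rw [coreB_of B η x x' u u' h1 h2]; exact neg_ne_zero.2 (sub_ne_zero.2 h4)⟩
    (fun p hp => by
      obtain ⟨x, x', u, u', k, l, h1, h2, h3, h4⟩ := hK p hp
      refine ⟨(x, u 1, u 2), (x', u' 1, u' 2), ?_, ?_⟩
      · have h5 := coreB_even B η hc (x, u 1, u 2)
        generalize coreB B η (x, u 1, u 2) (x, u 1, u 2) / 2 = w at h5 ⊢
        rw [coreB_of B η x x u u h1 h1, h3] at h5
        rcases hp.eq_two_or_odd' with rfl | ho
        · exact ⟨-k - l, by push_cast at h5 ⊢; linarith⟩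
        · have hp' : Prime (p : ℤ) := Nat.prime_iff_prime_int.1 hp
          have h6 : (p : ℤ) ∣ 2 * w := ⟨-(2 * k + p * l), by rw [← h5]; ring⟩
          refine (hp'.dvd_or_dvd h6).resolve_left fun h7 => ?_
          have h8 : p ∣ 2 := Int.natCast_dvd_natCast.1 h7
          rw [(Nat.prime_dvd_prime_iff_eq hp Nat.prime_two).1 h8] at ho
          exact absurd ho (by decide)
      · rw [coreB_of B η x x' u u' h1 h2, dvd_neg]
        exact h4)
  have hq' := coreB_even B η hc (z, s, t)
  rw [hz, coreB_apply] at hq'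
  rw [l1, l2] at hco
  refine ⟨z, _, _, hco, ?_⟩
  simp only [disc_apply, nf] at hq' ⊢
  linear_combination (-3) * hq'

end Vale.Agent.P287Q.Lat
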