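import Vale.Agent.P287Q.Lat.Defs

/-! # P287: lattice step, an isotropic sublattice meets a large sublattice outside its radical -/

namespace Vale.Agent.P287Q.Lat

open Module

variable {V D : Type*} [AddCommGroup V] [Module.Free ℤ V] [Module.Finite ℤ V]
  [AddCommGroup D] [Module.Free ℤ D] [Module.Finite ℤ D]

theorem hl_field {K W : Type*} [Field K] [AddCommGroup W] [Module K W] [FiniteDimensional K W]
    (B : LinearMap.BilinForm K W) (hB : ∀ x y, B x y = B y x) (hu : Function.Injective B)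
    (Λ P : Submodule K W) (hΛ : ∀ x ∈ Λ, ∀ y ∈ Λ, B x y = 0)
    (hr : finrank K W < finrank K Λ + finrank K P) :
    ∃ z ∈ Λ, z ∈ P ∧ ∃ w ∈ P, B z w ≠ 0 := by
  by_contra hc
  push Not at hc
  have hrefl : B.IsRefl := fun x y h => by rw [hB]; exact h
  have hnd : B.Nondegenerate := by
    have h1 : ∀ x, (∀ y, B x y = 0) → x = 0 := fun x hx =>
      hu (by rw [map_zero]; exact LinearMap.ext hx)
    exact ⟨h1, fun y hy => h1 y fun x => by rw [hB]; exact hy x⟩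
  have hle : Λ ⊓ P ≤ B.orthogonal (Λ ⊔ P) := by
    intro z hz
    rw [LinearMap.BilinForm.mem_orthogonal_iff]
    intro w hw
    obtain ⟨a, ha, c, hc', rfl⟩ := Submodule.mem_sup.1 hw
    show B (a + c) z = 0
    rw [map_add, LinearMap.add_apply, hΛ a ha z hz.1, hB c z, hc z hz.1 hz.2 c hc', add_zero]
  have h1 := Submodule.finrank_mono hle
  have h2 := LinearMap.BilinForm.finrank_orthogonal hnd (Λ ⊔ P)
  have h3 := Submodule.finrank_sup_add_finrank_inf_eq Λ P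
  have h4 := Submodule.finrank_le (Λ ⊔ P)
  omega

/-- Common denominators. -/
theorem hf_den {K γ : Type*} [Field K] [Fintype γ]
    (hK : ∀ k : K, ∃ n m : ℤ, (n : K) ≠ 0 ∧ (n : K) * k = m) (k : γ → K) :
    ∃ (n : ℤ) (m : γ → ℤ), (n : K) ≠ 0 ∧ ∀ j, (n : K) * k j = m j := by
  classical
  choose n m hn hm using fun j => hK (k j)
  refine ⟨∏ j, n j, fun j => (∏ i ∈ Finset.univ.erase j, n i) * m j, ?_, fun j => ?_⟩
  · push_cast
    exact Finset.prod_ne_zero_iff.2 fun j _ => hn j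
  · rw [← Finset.prod_erase_mul _ _ (Finset.mem_univ j)]
    push_cast
    rw [mul_assoc, hm]

/-- The span of the image of a lattice in a vector space over a prime field. -/
theorem hf_span {K W : Type*} [Field K] [AddCommGroup W] [Module K W]
    (hK : ∀ k : K, ∃ n m : ℤ, (n : K) ≠ 0 ∧ (n : K) * k = m) (ψ : D →+ W)
    (hψ : ∀ d, ψ d = 0 → ∀ g : D →ₗ[ℤ] ℤ, (g d : K) = 0) :
    ∃ P : Submodule K W, finrank K P = finrank ℤ D ∧
      ∀ z ∈ P, ∃ (n : ℤ) (d : D), (n : K) ≠ 0 ∧ (n : K) • z = ψ d := by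
  classical
  let c := Module.Free.chooseBasis ℤ D
  have key : ∀ k : Module.Free.ChooseBasisIndex ℤ D → K,
      ∃ (n : ℤ) (m : Module.Free.ChooseBasisIndex ℤ D → ℤ), (n : K) ≠ 0 ∧
        (∀ j, (n : K) * k j = m j) ∧ (n : K) • ∑ j, k j • ψ (c j) = ψ (∑ j, m j • c j) := by
    intro k
    obtain ⟨n, m, hn, hm⟩ := hf_den hK k
    refine ⟨n, m, hn, hm, ?_⟩
    rw [map_sum, Finset.smul_sum]
    refine Finset.sum_congr rfl fun j _ => ?_
    rw [smul_smul, hm, map_zsmul, Int.cast_smul_eq_zsmul]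
  have hli : LinearIndependent K fun j => ψ (c j) := by
    rw [Fintype.linearIndependent_iff]
    intro k hk j
    obtain ⟨n, m, hn, hm, he⟩ := key k
    rw [hk, smul_zero] at he
    have h1 := hψ _ he.symm (c.coord j)
    have h2 : c.coord j (∑ i, m i • c i) = m j := by
      rw [Module.Basis.coord_apply, c.repr_sum_self]
    rw [h2, ← hm] at h1
    exact (mul_eq_zero.1 h1).resolve_left hn
  refine ⟨Submodule.span K (Set.range fun j => ψ (c j)), ?_, fun z hz => ?_⟩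
  · rw [finrank_span_eq_card hli, Module.finrank_eq_card_chooseBasisIndex]
  · obtain ⟨k, rfl⟩ := (Submodule.mem_span_range_iff_exists_fun K).1 hz
    obtain ⟨n, m, hn, -, he⟩ := key k
    exact ⟨n, _, hn, he⟩

/-- The statement over an arbitrary prime field. -/
theorem hf_gen {K : Type*} [Field K]
    (hK : ∀ k : K, ∃ n m : ℤ, (n : K) ≠ 0 ∧ (n : K) * k = m)
    (B : LinearMap.BilinForm ℤ V) (hB : ∀ x y, B x y = B y x)
    (hu : Function.Bijective B) (Λ : Submodule ℤ V) (hΛ : ∀ x ∈ Λ, ∀ y ∈ Λ, B x y = 0)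
    (φ : D →ₗ[ℤ] V)
    (h1 : ∀ x : Λ, (∀ g : V →ₗ[ℤ] ℤ, (g x : K) = 0) → ∀ g : Λ →ₗ[ℤ] ℤ, (g x : K) = 0)
    (h2 : ∀ x : D, (∀ g : V →ₗ[ℤ] ℤ, (g (φ x) : K) = 0) → ∀ g : D →ₗ[ℤ] ℤ, (g x : K) = 0)
    (hr : finrank ℤ V < finrank ℤ Λ + finrank ℤ D) :
    ∃ (d d' : D), ∃ x ∈ Λ, (∀ g : V →ₗ[ℤ] ℤ, (g (x - φ d) : K) = 0) ∧
      (B (φ d) (φ d') : K) ≠ 0 := by
  classical
  let b := Module.Free.chooseBasis ℤ V
  let red : V →+ (Module.Free.ChooseBasisIndex ℤ V → K) :=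
    { toFun := fun x i => (b.repr x i : K)
      map_zero' := by funext i; simp
      map_add' := fun x y => by funext i; simp }
  have hred : ∀ x i, red x i = (b.repr x i : K) := fun _ _ => rfl
  have hg : ∀ (g : V →ₗ[ℤ] ℤ) (x : V), (g x : K) = ∑ i, red x i * (g (b i) : K) := by
    intro g x
    conv_lhs => rw [← b.sum_repr x]
    rw [map_sum]
    push_cast
    refine Finset.sum_congr rfl fun i _ => ?_
    rw [map_smul, smul_eq_mul, hred]
    push_cast
    rfl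
  have hz : ∀ x, red x = 0 → ∀ g : V →ₗ[ℤ] ℤ, (g x : K) = 0 := by
    intro x hx g
    rw [hg, hx]
    simp
  let C : LinearMap.BilinForm K (Module.Free.ChooseBasisIndex ℤ V → K) :=
    Matrix.toBilin' (Matrix.of fun i j => (B (b i) (b j) : K))
  have hC : ∀ z w, C z w = ∑ i, ∑ j, z i * (B (b i) (b j) : K) * w j := fun z w =>
    Matrix.toBilin'_apply _ z w
  have hCs : ∀ z w, C z w = C w z := by
    intro z w
    rw [hC, hC, Finset.sum_comm]
    refine Finset.sum_congr rfl fun i _ => Finset.sum_congr rfl fun j _ => ?_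
    rw [hB (b j) (b i)]
    ring
  have hC1 : ∀ (x : V) w, C (red x) w = ∑ j, (B x (b j) : K) * w j := by
    intro x w
    rw [hC, Finset.sum_comm]
    refine Finset.sum_congr rfl fun j _ => ?_
    rw [← Finset.sum_mul]
    congr 1
    have := hg (B (b j)) x
    rw [hB x (b j), this]
    refine Finset.sum_congr rfl fun i _ => ?_
    rw [hB (b i) (b j)]
  have hC2 : ∀ x y : V, C (red x) (red y) = (B x y : K) := by
    intro x y
    rw [hC1, hg (B x) y]
    exact Finset.sum_congr rfl fun j _ => mul_comm _ _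
  have hCi : Function.Injective C := by
    rw [injective_iff_map_eq_zero]
    intro z hz0
    funext i
    obtain ⟨y, hy⟩ := hu.2 (b.coord i)
    have h3 : C (red y) z = 0 := by rw [hCs, hz0]; rfl
    rw [hC1, hy, Finset.sum_eq_single i] at h3
    · simpa using h3
    · intro j _ hj
      simp [hj]
    · simp
  obtain ⟨Λ', hΛ1, hΛ2⟩ := hf_span hK (red.comp Λ.subtype.toAddMonoidHom)
    fun x hx => h1 x (hz _ hx)
  obtain ⟨P, hP1, hP2⟩ := hf_span hK (red.comp φ.toAddMonoidHom) fun x hx => h2 x (hz _ hx)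
  have hiso : ∀ z ∈ Λ', ∀ w ∈ Λ', C z w = 0 := by
    intro z hz w hw
    obtain ⟨n, x, hn, hx⟩ := hΛ2 z hz
    obtain ⟨m, y, hm, hy⟩ := hΛ2 w hw
    have h3 : C ((n : K) • z) ((m : K) • w) = 0 := by
      rw [hx, hy]
      show C (red x) (red y) = 0
      rw [hC2, hΛ _ x.2 _ y.2, Int.cast_zero]
    simpa [hn, hm] using h3
  obtain ⟨z, hz1, hz2, w, hw, hzw⟩ := hl_field C hCs hCi Λ' P hiso (by
    rw [hΛ1, hP1, Module.finrank_fintype_fun_eq_card, ← Module.finrank_eq_card_chooseBasisIndex]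
    exact hr)
  obtain ⟨n, x, hn, hx⟩ := hΛ2 z hz1
  obtain ⟨m, d, hm, hd⟩ := hP2 z hz2
  obtain ⟨l, d', hl, hd'⟩ := hP2 w hw
  have hx' : (n : K) • z = red x := hx
  have hd1 : (m : K) • z = red (φ d) := hd
  have hd2 : (l : K) • w = red (φ d') := hd'
  have e1 : red (φ (n • d)) = ((n : K) * m) • z := by
    rw [map_zsmul, map_zsmul, ← hd1, ← Int.cast_smul_eq_zsmul K, smul_smul]
  refine ⟨n • d, d', m • (x : V), Λ.smul_mem m x.2, hz _ ?_, ?_⟩
  · rw [map_sub, e1, map_zsmul, ← hx', ← Int.cast_smul_eq_zsmul K, smul_smul, mul_comm, sub_self]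
  · rw [← hC2, e1, ← hd2]
    simpa [hn, hm, hl] using hzw

omit [Module.Finite ℤ V] in
theorem hf_nul_rat (x : V) (hx : ∀ g : V →ₗ[ℤ] ℤ, (g x : ℚ) = 0) : x = 0 := by
  let b := Module.Free.chooseBasis ℤ V
  refine b.repr.injective ?_
  ext i
  have := hx (b.coord i)
  simpa using this

theorem hf_nul_mod {p : ℕ} (x : V) (hx : ∀ g : V →ₗ[ℤ] ℤ, (g x : ZMod p) = 0) :
    ∃ y, x = (p : ℤ) • y := by
  classical
  let b := Module.Free.chooseBasis ℤ V
  have h : ∀ i, ∃ k : ℤ, b.repr x i = p * k := fun i =>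
    (ZMod.intCast_zmod_eq_zero_iff_dvd _ p).1 (hx (b.coord i))
  choose k hk using h
  refine ⟨∑ i, k i • b i, ?_⟩
  conv_lhs => rw [← b.sum_repr x]
  rw [Finset.smul_sum]
  exact Finset.sum_congr rfl fun i _ => by rw [hk, mul_smul]

theorem hl_zero (B : LinearMap.BilinForm ℤ V) (hB : ∀ x y, B x y = B y x)
    (hu : Function.Bijective B) (Λ : Submodule ℤ V) (hΛ : ∀ x ∈ Λ, ∀ y ∈ Λ, B x y = 0)
    (φ : D →ₗ[ℤ] V) (hφ : Function.Injective φ)
    (hr : finrank ℤ V < finrank ℤ Λ + finrank ℤ D) :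
    ∃ d d' : D, φ d ∈ Λ ∧ B (φ d) (φ d') ≠ 0 := by
  obtain ⟨d, d', x, hx, h1, h2⟩ := hf_gen (K := ℚ)
    (fun k => ⟨k.den, k.num, by exact_mod_cast k.den_nz, by
      rw [Int.cast_natCast, mul_comm]; exact Rat.mul_den_eq_num k⟩) B hB hu Λ hΛ φ
    (fun x hx g => by
      have : x = 0 := Subtype.ext (hf_nul_rat _ hx)
      simp [this])
    (fun x hx g => by
      have : x = 0 := hφ (by rw [map_zero]; exact hf_nul_rat _ hx)
      simp [this]) hr
  refine ⟨d, d', ?_, by exact_mod_cast h2⟩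
  rw [← sub_eq_zero.1 (hf_nul_rat _ h1)]
  exact hx

theorem hl_mod (B : LinearMap.BilinForm ℤ V) (hB : ∀ x y, B x y = B y x)
    (hu : Function.Bijective B) (Λ : Submodule ℤ V) (hS : Sat Λ)
    (hΛ : ∀ x ∈ Λ, ∀ y ∈ Λ, B x y = 0) {p : ℕ} (hp : p.Prime)
    (φ : D →ₗ[ℤ] V) (hφ : Prim (p : ℤ) φ)
    (hr : finrank ℤ V < finrank ℤ Λ + finrank ℤ D) :
    ∃ (d d' : D) (y : V), φ d + (p : ℤ) • y ∈ Λ ∧ ¬ (p : ℤ) ∣ B (φ d) (φ d') := by
  have := Fact.mk hp
  have hp0 : (p : ℤ) ≠ 0 := by exact_mod_cast hp.ne_zero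
  obtain ⟨d, d', x, hx, h1, h2⟩ := hf_gen (K := ZMod p)
    (fun k => by
      obtain ⟨m, rfl⟩ := ZMod.intCast_surjective k
      exact ⟨1, m, by simp, by simp⟩) B hB hu Λ hΛ φ
    (fun x hx g => by
      obtain ⟨y, hy⟩ := hf_nul_mod _ hx
      have hyΛ : y ∈ Λ := hS p y hp0 (hy ▸ x.2)
      have : x = (p : ℤ) • (⟨y, hyΛ⟩ : Λ) := Subtype.ext hy
      rw [this, map_smul]
      simp)
    (fun x hx g => by
      obtain ⟨y, hy⟩ := hf_nul_mod _ hx
      obtain ⟨z, rfl⟩ := hφ x y hy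
      rw [map_smul]
      simp) hr
  obtain ⟨y, hy⟩ := hf_nul_mod _ h1
  refine ⟨d, d', y, ?_, fun h => h2 ((ZMod.intCast_zmod_eq_zero_iff_dvd _ p).2 h)⟩
  rw [← hy, add_sub_cancel]
  exact hx

end Vale.Agent.P287Q.Lat
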