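import Vale.Agent.P287Q.Lat.WqB

/-! A class unimodular at every prime is a multiple of the unit form. -/

namespace Vale.Agent.P287Q.Lat.Wq

open Module Matrix

/-- a nonzero integer all of whose prime factors are smaller than `n` -/
def Sm (n : ℕ) (a : ℤ) : Prop := a ≠ 0 ∧ ∀ q : ℕ, q.Prime → (q : ℤ) ∣ a → q < n

theorem Sm.mul {n : ℕ} {a b : ℤ} (ha : Sm n a) (hb : Sm n b) : Sm n (a * b) :=
  ⟨mul_ne_zero ha.1 hb.1, fun q hq h =>
    ((Nat.prime_iff_prime_int.1 hq).dvd_or_dvd h).elim (ha.2 q hq) (hb.2 q hq)⟩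

theorem Sm.of_lt {n : ℕ} {a : ℤ} (h0 : a ≠ 0) (h : |a| < n) : Sm n a :=
  ⟨h0, fun q _ hq => by
    have := Int.le_of_dvd (abs_pos.2 h0) ((dvd_abs _ _).2 hq)
    exact_mod_cast this.trans_lt h⟩

theorem Sm.of_dvd {n : ℕ} {a b : ℤ} (ha : Sm n a) (h : b ∣ a) : Sm n b :=
  ⟨fun hb => ha.1 (by subst hb; simpa using h), fun q hq hh => ha.2 q hq (hh.trans h)⟩

theorem Sm.not_dvd {p : ℕ} (hp : p.Prime) {a : ℤ} (ha : Sm p a) : ¬ (p : ℤ) ∣ a :=
  fun h => lt_irrefl _ (ha.2 p hp h)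

theorem Sm.mono {m n : ℕ} (h : m ≤ n) {a : ℤ} (ha : Sm m a) : Sm n a :=
  ⟨ha.1, fun q hq hh => (ha.2 q hq hh).trans_le h⟩

theorem sm_one (n : ℕ) : Sm n 1 :=
  ⟨one_ne_zero, fun _ hq h => absurd h (Nat.prime_iff_prime_int.1 hq).not_dvd_one⟩

/-- the subgroup generated by the smooth rank one classes -/
def S (n : ℕ) : AddSubgroup WQ := AddSubgroup.closure {x | ∃ a : ℤ, Sm n a ∧ x = d a}

theorem d_mem_S {n : ℕ} {a : ℤ} (h : Sm n a) : d a ∈ S n :=
  AddSubgroup.subset_closure ⟨a, h, rfl⟩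

theorem S_mono {m n : ℕ} (h : m ≤ n) : S m ≤ S n :=
  AddSubgroup.closure_mono fun _ ⟨a, ha, e⟩ => ⟨a, ha.mono h, e⟩

theorem exists_S_d {a : ℚ} (h : a ≠ 0) : ∃ n, d a ∈ S n := by
  have hd : (a.den : ℚ) ≠ 0 := by exact_mod_cast a.den_nz
  have e : ((a.num * a.den : ℤ) : ℚ) = a * (a.den : ℚ) ^ 2 := by
    push_cast
    rw [sq, ← mul_assoc, Rat.mul_den_eq_num]
  refine ⟨(a.num * a.den).natAbs + 1, ?_⟩
  rw [← d_mul_sq a hd, ← e]
  refine d_mem_S (Sm.of_lt (mul_ne_zero (Rat.num_ne_zero.2 h) (by exact_mod_cast a.den_nz)) ?_)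
  rw [Int.abs_eq_natAbs]
  exact_mod_cast Nat.lt_succ_self _

theorem exists_S (x : WQ) : ∃ n, x ∈ S n := by
  obtain ⟨X, rfl⟩ := cls_surj x
  obtain ⟨n, a, h, e⟩ := exists_dg X
  choose m hm using fun i => exists_S_d (h i)
  refine ⟨Finset.univ.sup m, ?_⟩
  rw [e]
  exact AddSubgroup.sum_mem _ fun i _ => S_mono (Finset.le_sup (Finset.mem_univ i)) (hm i)

theorem S_le_Un {p : ℕ} (hp : p.Prime) : S p ≤ Un p hp := by
  refine (AddSubgroup.closure_le _).2 ?_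
  rintro _ ⟨a, ha, rfl⟩
  exact d_mem_Un hp (ha.not_dvd hp)

section Desc

variable (p : ℕ) [hp : Fact p.Prime]

/-- the class of `⟨p u⟩` modulo smooth classes -/
noncomputable def c (u : ℤ) : WQ ⧸ S p := QuotientAddGroup.mk' (S p) (d ((p * u : ℤ)))

variable {p}

omit hp in
theorem mk_d {a : ℤ} (h : Sm p a) : QuotientAddGroup.mk' (S p) (d a) = 0 :=
  (QuotientAddGroup.eq_zero_iff _).2 (d_mem_S h)

theorem c_step {w n0 n1 n2 : ℤ} (hw : Sm p w) (h0 : n0 ≠ 0) (h1 : n1 ≠ 0) (h2 : n2 ≠ 0)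
    (l0 : |n0| < p) (l1 : |n1| < p) (l2 : |n2| < p) (h : (p : ℤ) ∣ n1 * n2 - n0) :
    c p (w * (n1 * n2)) = c p (w * n0) := by
  obtain ⟨k, hk⟩ := h
  by_cases hk0 : k = 0
  · rw [hk0, mul_zero, sub_eq_zero] at hk
    rw [hk]
  have hp0 : (0 : ℤ) < p := by exact_mod_cast hp.out.pos
  have lk : |k| < p := by
    have a1 : |n1 * n2| ≤ (p - 1) * (p - 1) := by
      rw [abs_mul]
      exact mul_le_mul (by omega) (by omega) (abs_nonneg _) (by omega)
    have a2 : p * |k| ≤ |n1 * n2| + |n0| := by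
      rw [← abs_of_pos hp0, ← abs_mul, ← hk]
      exact abs_sub _ _
    by_contra hh
    have : (p : ℤ) * p ≤ p * |k| := mul_le_mul_of_nonneg_left (not_lt.1 hh) hp0.le
    nlinarith
  have hpq : (p : ℚ) ≠ 0 := by exact_mod_cast hp.out.ne_zero
  have hwq : (w : ℚ) ≠ 0 := by exact_mod_cast hw.1
  have q0 : (n0 : ℚ) ≠ 0 := by exact_mod_cast h0
  have q1 : (n1 : ℚ) ≠ 0 := by exact_mod_cast h1
  have q2 : (n2 : ℚ) ≠ 0 := by exact_mod_cast h2
  have qk : (k : ℚ) ≠ 0 := by exact_mod_cast hk0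
  have hkq : (n1 : ℚ) * n2 = n0 + p * k := by
    have : n1 * n2 = n0 + p * k := by rw [← hk]; ring
    exact_mod_cast this
  have e1 : (p : ℚ) * (w * n0) + w * k * p ^ 2 = p * (w * (n1 * n2)) := by rw [hkq]; ring
  have e := d_add (a := (p : ℚ) * (w * n0)) (b := w * k * p ^ 2) (by positivity) (by positivity)
    (by rw [e1]; positivity)
  rw [e1, d_mul_sq _ hpq, show (p : ℚ) * (w * n0) * (w * k * p ^ 2) * (p * (w * (n1 * n2))) =
    (w * n0 * k * (n1 * n2)) * (p ^ 2 * w) ^ 2 by ring, d_mul_sq _ (by positivity)] at e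
  have e' := congrArg (QuotientAddGroup.mk' (S p)) e
  have z1 := mk_d (hw.mul (Sm.of_lt hk0 lk))
  have z2 := mk_d (((hw.mul (Sm.of_lt h0 l0)).mul (Sm.of_lt hk0 lk)).mul
    ((Sm.of_lt h1 l1).mul (Sm.of_lt h2 l2)))
  push_cast at z1 z2
  rw [map_add, map_add, z1, z2, add_zero, add_zero] at e'
  unfold c
  push_cast
  exact e'.symm

theorem val_lt' (x : ZMod p) : |(x.val : ℤ)| < p := by
  rw [Nat.abs_cast]
  exact_mod_cast ZMod.val_lt x

theorem val_ne {x : ZMod p} (hx : x ≠ 0) : (x.val : ℤ) ≠ 0 := by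
  have : x.val ≠ 0 := fun h => hx ((ZMod.val_eq_zero x).1 h)
  exact_mod_cast this

theorem Sm.cast_ne {u : ℤ} (hu : Sm p u) : (u : ZMod p) ≠ 0 := fun h =>
  hu.not_dvd hp.out ((ZMod.intCast_zmod_eq_zero_iff_dvd _ _).1 h)

theorem sm_val {x : ZMod p} (hx : x ≠ 0) : Sm p (x.val : ℤ) := Sm.of_lt (val_ne hx) (val_lt' x)

theorem c_val (n : ℕ) : ∀ u : ℤ, u.natAbs = n → Sm p u → ∀ w : ℤ, Sm p w →
    c p (w * u) = c p (w * ((u : ZMod p).val : ℤ)) := by
  induction n using Nat.strong_induction_on with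
  | _ n ih =>
  intro u hn hu w hw
  have h1 : |(1 : ℤ)| < p := by simpa using hp.out.one_lt
  by_cases hl : |u| < p
  · have := c_step hw (val_ne hu.cast_ne) hu.1 one_ne_zero (val_lt' _) hl h1
      ((ZMod.intCast_zmod_eq_zero_iff_dvd _ _).1 (by simp))
    rwa [mul_one] at this
  · have hne : u.natAbs ≠ 1 := by
      intro h
      apply hl
      rw [Int.abs_eq_natAbs, h]
      simpa using hp.out.one_lt
    obtain ⟨q, hq, hqu⟩ := Nat.exists_prime_and_dvd hne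
    obtain ⟨v, rfl⟩ := Int.natCast_dvd.2 hqu
    have hv : Sm p v := hu.of_dvd (dvd_mul_left _ _)
    have hq' : Sm p q := hu.of_dvd (dvd_mul_right _ _)
    have hql : |(q : ℤ)| < p := by
      rw [Nat.abs_cast]
      exact_mod_cast hu.2 q hq (dvd_mul_right _ _)
    have hlt : v.natAbs < n := by
      rw [← hn, Int.natAbs_mul, Int.natAbs_natCast]
      have := Int.natAbs_pos.2 hv.1
      have := hq.two_le
      nlinarith
    rw [← mul_assoc, ih _ hlt v rfl hv _ (hw.mul hq'), mul_assoc]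
    exact c_step hw (val_ne hu.cast_ne) hq'.1 (val_ne hv.cast_ne) (val_lt' _) hql (val_lt' _)
      ((ZMod.intCast_zmod_eq_zero_iff_dvd _ _).1 (by simp))

/-- the symbol of a residue -/
noncomputable def χ (x : ZMod p) : WQ ⧸ S p := c p (x.val : ℤ)

theorem c_eq {u : ℤ} (hu : Sm p u) : c p u = χ (u : ZMod p) := by
  have := c_val _ u rfl hu 1 (sm_one p)
  rwa [one_mul, one_mul] at this

theorem χ_sq {x s : ZMod p} (hx : x ≠ 0) (hs : s ≠ 0) : χ (x * s ^ 2) = χ x := by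
  have h := c_eq ((sm_val hx).mul ((sm_val hs).mul (sm_val hs)))
  have e : (((x.val : ℤ) * ((s.val : ℤ) * (s.val : ℤ)) : ℤ) : ZMod p) = x * s ^ 2 := by
    simp [sq]
  rw [e] at h
  rw [← h]
  unfold χ c
  have hq : ((s.val : ℤ) : ℚ) ≠ 0 := by exact_mod_cast val_ne hs
  rw [← d_mul_sq ((p * (x.val : ℤ) : ℤ) : ℚ) hq]
  congr 2
  push_cast
  ring

theorem χ_neg {x : ZMod p} (hx : x ≠ 0) : χ (-x) = - χ x := by
  have h := c_eq ((sm_val hx).of_dvd (neg_dvd.2 dvd_rfl))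
  have e : ((-(x.val : ℤ) : ℤ) : ZMod p) = -x := by simp
  rw [e] at h
  rw [← h]
  unfold χ c
  rw [← map_neg, ← d_neg]
  congr 2
  push_cast
  ring

theorem χ_add {x y : ZMod p} (hx : x ≠ 0) (hy : y ≠ 0) (hxy : x + y ≠ 0) :
    χ x + χ y = χ (x + y) + χ (x * y * (x + y)) := by
  set a : ℤ := (x.val : ℤ) with ha
  set b : ℤ := (y.val : ℤ) - p with hb
  have ea : (a : ZMod p) = x := by simp [ha]
  have eb : (b : ZMod p) = y := by simp [hb]
  have a0 := val_ne hx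
  have a1 := val_lt' x
  have b0 := val_ne hy
  have b1 := val_lt' y
  rw [Nat.abs_cast] at a1 b1
  have sa : Sm p a := sm_val hx
  have sb : Sm p b := Sm.of_lt (by omega) (abs_lt.2 ⟨by omega, by omega⟩)
  have hab : a + b ≠ 0 := by
    intro h
    apply hxy
    rw [← ea, ← eb, ← Int.cast_add, h, Int.cast_zero]
  have sab : Sm p (a + b) := Sm.of_lt hab (abs_lt.2 ⟨by omega, by omega⟩)
  have h1 := c_eq sa
  have h2 := c_eq sb
  have h3 := c_eq sab
  have h4 := c_eq ((sa.mul sb).mul sab)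
  push_cast at h3 h4
  rw [ea] at h1 h3 h4
  rw [eb] at h2 h3 h4
  rw [← h1, ← h2, ← h3, ← h4]
  unfold c
  have hpq : (p : ℚ) ≠ 0 := by exact_mod_cast hp.out.ne_zero
  have qa : (a : ℚ) ≠ 0 := by exact_mod_cast sa.1
  have qb : (b : ℚ) ≠ 0 := by exact_mod_cast sb.1
  have qab : (a : ℚ) + b ≠ 0 := by exact_mod_cast hab
  have e := d_add (a := (p : ℚ) * a) (b := p * b) (by positivity) (by positivity)
    (by rw [← mul_add]; positivity)
  rw [show (p : ℚ) * a * (p * b) * (p * a + p * b) = p * (a * b * (a + b)) * p ^ 2 by ring,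
    d_mul_sq _ hpq, ← mul_add] at e
  rw [← map_add, ← map_add]
  push_cast
  rw [e]

omit hp in
theorem two_aux : ∀ x z : ZMod 2, x ≠ 0 → z ≠ 0 → x = -z := by decide

theorem exists_rep {x y : ZMod p} (hx : x ≠ 0) (hy : y ≠ 0) {z : ZMod p} (hz : z ≠ 0) :
    ∃ s t : ZMod p, x * s ^ 2 + y * t ^ 2 = -z := by
  by_cases h2 : p = 2
  · subst h2
    exact ⟨1, 0, by simpa using two_aux x z hx hz⟩
  have ho : Fintype.card (ZMod p) % 2 = 1 := by
    rw [ZMod.card]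
    exact hp.out.eq_two_or_odd.resolve_left h2
  obtain ⟨s, t, h⟩ := FiniteField.exists_root_sum_quadratic
    (f := Polynomial.C x * Polynomial.X ^ 2) (g := Polynomial.C y * Polynomial.X ^ 2 + Polynomial.C z)
    (Polynomial.degree_C_mul_X_pow 2 hx)
    (by rw [Polynomial.degree_add_C] <;> rw [Polynomial.degree_C_mul_X_pow 2 hy] <;> norm_num) ho
  refine ⟨s, t, ?_⟩
  simp only [Polynomial.eval_mul, Polynomial.eval_C, Polynomial.eval_pow, Polynomial.eval_X,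
    Polynomial.eval_add] at h
  linear_combination h

theorem χ_three {x y z : ZMod p} (hx : x ≠ 0) (hy : y ≠ 0) (hz : z ≠ 0) :
    ∃ w : ZMod p, w ≠ 0 ∧ χ x + χ y + χ z = χ w := by
  obtain ⟨s, t, h⟩ := exists_rep hx hy hz
  by_cases hs : s = 0
  · have ht : t ≠ 0 := by
      rintro rfl
      exact hz (by rw [hs] at h; simpa using h)
    refine ⟨x, hx, ?_⟩
    rw [← χ_sq hy ht, show y * t ^ 2 = -z by rw [← h, hs]; ring, χ_neg hz]
    abel
  by_cases ht : t = 0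
  · refine ⟨y, hy, ?_⟩
    rw [← χ_sq hx hs, show x * s ^ 2 = -z by rw [← h, ht]; ring, χ_neg hz]
    abel
  have h1 : x * s ^ 2 ≠ 0 := mul_ne_zero hx (pow_ne_zero 2 hs)
  have h2 : y * t ^ 2 ≠ 0 := mul_ne_zero hy (pow_ne_zero 2 ht)
  have h3 : x * s ^ 2 + y * t ^ 2 ≠ 0 := by rw [h]; exact neg_ne_zero.2 hz
  refine ⟨_, mul_ne_zero (mul_ne_zero h1 h2) h3, ?_⟩
  have e := χ_add h1 h2 h3
  rw [χ_sq hx hs, χ_sq hy ht] at e
  rw [e, h, χ_neg hz]
  abel

/-- sums of at most two symbols -/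
def Two (p : ℕ) [Fact p.Prime] : AddSubgroup (WQ ⧸ S p) where
  carrier := {g | (∃ x : ZMod p, x ≠ 0 ∧ g = χ x) ∨
    ∃ x y : ZMod p, x ≠ 0 ∧ y ≠ 0 ∧ g = χ x + χ y}
  add_mem' := by
    rintro _ _ (⟨x, hx, rfl⟩ | ⟨x, y, hx, hy, rfl⟩) (⟨z, hz, rfl⟩ | ⟨z, t, hz, ht, rfl⟩)
    · exact Or.inr ⟨x, z, hx, hz, rfl⟩
    · obtain ⟨w, hw, e⟩ := χ_three hx hz ht
      exact Or.inl ⟨w, hw, by rw [← e, add_assoc]⟩
    · obtain ⟨w, hw, e⟩ := χ_three hx hy hz
      exact Or.inl ⟨w, hw, e⟩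
    · obtain ⟨w, hw, e⟩ := χ_three hx hy hz
      exact Or.inr ⟨w, t, hw, ht, by rw [← e, add_assoc (χ x + χ y)]⟩
  zero_mem' := Or.inr ⟨-1, 1, neg_ne_zero.2 one_ne_zero, one_ne_zero, by
    rw [χ_neg one_ne_zero, neg_add_cancel]⟩
  neg_mem' := by
    rintro _ (⟨x, hx, rfl⟩ | ⟨x, y, hx, hy, rfl⟩)
    · exact Or.inl ⟨-x, neg_ne_zero.2 hx, (χ_neg hx).symm⟩
    · exact Or.inr ⟨-x, -y, neg_ne_zero.2 hx, neg_ne_zero.2 hy, by
        rw [χ_neg hx, χ_neg hy, neg_add]⟩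

theorem mk_mem_Two {x : WQ} (hx : x ∈ S (p + 1)) : QuotientAddGroup.mk' (S p) x ∈ Two p := by
  have : S (p + 1) ≤ (Two p).comap (QuotientAddGroup.mk' (S p)) := by
    refine (AddSubgroup.closure_le _).2 ?_
    rintro _ ⟨a, ha, rfl⟩
    obtain ⟨u, hau, hu⟩ := (Int.finiteMultiplicity_iff.2 ⟨by simpa using hp.out.ne_one, ha.1⟩ :
      FiniteMultiplicity (p : ℤ) a).exists_eq_pow_mul_and_not_dvd
    generalize multiplicity (p : ℤ) a = e at hau
    subst hau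
    have su : Sm p u := ⟨(ha.of_dvd (dvd_mul_left _ _)).1, fun q hq hqu => by
      have h1 := ha.2 q hq (hqu.mul_left _)
      have h2 : q ≠ p := by rintro rfl; exact hu hqu
      omega⟩
    have hpq : (p : ℚ) ≠ 0 := by exact_mod_cast hp.out.ne_zero
    change QuotientAddGroup.mk' (S p) _ ∈ Two p
    obtain ⟨k, rfl | rfl⟩ := Nat.even_or_odd' e
    · rw [show (((p : ℤ) ^ (2 * k) * u : ℤ) : ℚ) = u * (p ^ k) ^ 2 by push_cast; ring,
        d_mul_sq _ (pow_ne_zero _ hpq), mk_d su]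
      exact (Two p).zero_mem
    · rw [show (((p : ℤ) ^ (2 * k + 1) * u : ℤ) : ℚ) = ((p * u : ℤ) : ℚ) * (p ^ k) ^ 2 by
        push_cast; ring, d_mul_sq _ (pow_ne_zero _ hpq)]
      exact Or.inl ⟨u, su.cast_ne, c_eq su⟩
  exact this hx

theorem desc_prime {x : WQ} (hx : x ∈ S (p + 1)) (hu : x ∈ Un p hp.out) : x ∈ S p := by
  have key : ∀ y : WQ, QuotientAddGroup.mk' (S p) x = QuotientAddGroup.mk' (S p) y →
      y ∈ Un p hp.out := by
    intro y h
    have h1 : -x + y ∈ S p := QuotientAddGroup.eq.1 h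
    have := (Un p hp.out).add_mem hu (S_le_Un hp.out h1)
    rwa [add_neg_cancel_left] at this
  rcases mk_mem_Two hx with ⟨a, ha, e⟩ | ⟨a, b, ha, hb, e⟩
  · obtain ⟨z, hz, h⟩ := iso_of_mem_Un (n := 0) ![(a.val : ℤ)]
      (fun i => by fin_cases i; exact val_ne ha)
      (by simpa using key _ e)
    exfalso
    apply hz
    funext i
    fin_cases i
    simpa [ha] using h
  · obtain ⟨z, hz, h⟩ := iso_of_mem_Un (n := 1) ![(a.val : ℤ), (b.val : ℤ)]
      (fun i => by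
        fin_cases i
        exacts [val_ne ha, val_ne hb])
      (by
        have := key (d ((p * (a.val : ℤ) : ℤ)) + d ((p * (b.val : ℤ) : ℤ))) (by rw [e, map_add]; rfl)
        simpa using this)
    have h' : a * z 0 ^ 2 + b * z 1 ^ 2 = 0 := by simpa using h
    have h0 : z 0 ≠ 0 := by
      intro h0
      rw [h0] at h'
      have h1 : z 1 = 0 := by simpa [hb] using h'
      exact hz (by funext i; fin_cases i <;> assumption)
    have h1 : z 1 ≠ 0 := by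
      intro h1
      rw [h1] at h'
      exact h0 (by simpa [ha] using h')
    rw [← χ_sq ha h0, ← χ_sq hb h1, eq_neg_of_add_eq_zero_left h',
      χ_neg (mul_ne_zero hb (pow_ne_zero 2 h1)), neg_add_cancel] at e
    exact (QuotientAddGroup.eq_zero_iff _).1 e

end Desc

theorem desc {x : WQ} (hu : ∀ (p : ℕ) (hp : p.Prime), x ∈ Un p hp) :
    ∀ n, x ∈ S n → x ∈ S 0
  | 0, h => h
  | n + 1, h => by
    refine desc hu n ?_
    by_cases hn : n.Prime
    · have : Fact n.Prime := ⟨hn⟩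
      exact desc_prime h (hu n hn)
    · refine (AddSubgroup.closure_mono ?_ : S (n + 1) ≤ S n) h
      rintro _ ⟨a, ha, rfl⟩
      refine ⟨a, ⟨ha.1, fun q hq hqa => ?_⟩, rfl⟩
      have h1 := ha.2 q hq hqa
      have h2 : q ≠ n := by rintro rfl; exact hn hq
      omega

theorem exists_zsmul {x : WQ} (hu : ∀ (p : ℕ) (hp : p.Prime), x ∈ Un p hp) :
    ∃ n : ℤ, x = n • d 1 := by
  obtain ⟨n, hn⟩ := exists_S x
  have h : S 0 ≤ AddSubgroup.zmultiples (d 1) := by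
    refine (AddSubgroup.closure_le _).2 ?_
    rintro _ ⟨a, ha, rfl⟩
    have h1 : a.natAbs = 1 := by
      by_contra hne
      obtain ⟨q, hq, hqa⟩ := Nat.exists_prime_and_dvd hne
      exact absurd (ha.2 q hq (Int.natCast_dvd.2 hqa)) (Nat.not_lt_zero _)
    rcases Int.natAbs_eq_iff.1 h1 with rfl | rfl
    · simp
    · simp [d_neg]
  obtain ⟨k, hk⟩ := AddSubgroup.mem_zmultiples_iff.1 (h (desc hu n hn))
  exact ⟨k, hk.symm⟩

/-- a unimodular matrix is Witt equivalent to a definite unit form -/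
theorem exists_unit {α : Type} [Fintype α] [DecidableEq α] {G : Matrix α α ℤ} (hs : G.IsSymm)
    (hd : IsUnit G.det) : ∃ (k : ℕ) (ε : ℚ) (h : ε = 1 ∨ ε = -1),
      Met (osum (fm ℚ G) (Sp.dg (fun _ : Fin k => ε)
        (fun _ => by rcases h with rfl | rfl <;> norm_num)).B) := by
  have h : G.IsSymm ∧ G.det ≠ 0 := ⟨hs, hd.ne_zero⟩
  obtain ⟨n, hn⟩ := exists_zsmul (x := cls (Sp.mt G h)) fun p hp =>
    ⟨α, inferInstance, inferInstance, G, h, fun hh =>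
      (Nat.prime_iff_prime_int.1 hp).not_isUnit (isUnit_of_dvd_unit hh hd), rfl⟩
  obtain ⟨k, rfl | rfl⟩ := n.eq_nat_or_neg
  · refine ⟨k, -1, Or.inr rfl, ?_⟩
    refine (cls_eq_zero (X := (Sp.mt G h).add (Sp.dg _ _))).1 ?_
    rw [cls_add, cls_dg, hn, d_neg]
    simp
  · refine ⟨k, 1, Or.inl rfl, ?_⟩
    refine (cls_eq_zero (X := (Sp.mt G h).add (Sp.dg _ _))).1 ?_
    rw [cls_add, cls_dg, hn]
    simp

end Vale.Agent.P287Q.Lat.Wq
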