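import Vale.Agent.P287Q.Lat.Defs
import Vale.Agent.P287Q.Lat.WqC

/-! # P287: lattice step, isotropic sublattices of unimodular lattices -/

namespace Vale.Agent.P287Q.Lat

open Module

namespace Wq

variable {ι : Type*} [Fintype ι]

omit [Fintype ι] in
theorem cst_inj : Function.Injective (cst ℚ ι) := fun x y h => by
  funext i
  have := congrFun h i
  simpa using this

/-- the rational span of a sublattice -/
def rsp (N : Submodule ℤ (ι → ℤ)) : Submodule ℚ (ι → ℚ) where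
  carrier := {x | ∃ c : ℤ, c ≠ 0 ∧ ∃ y ∈ N, cst ℚ ι y = (c : ℚ) • x}
  add_mem' := by
    rintro x x' ⟨c, hc, y, hy, e⟩ ⟨c', hc', y', hy', e'⟩
    refine ⟨c * c', mul_ne_zero hc hc', c' • y + c • y',
      N.add_mem (N.smul_mem _ hy) (N.smul_mem _ hy'), ?_⟩
    rw [map_add, map_smul, map_smul, e, e', ← Int.cast_smul_eq_zsmul ℚ,
      ← Int.cast_smul_eq_zsmul ℚ]
    push_cast
    module
  zero_mem' := ⟨1, one_ne_zero, 0, N.zero_mem, by simp⟩
  smul_mem' := by
    rintro a x ⟨c, hc, y, hy, e⟩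
    refine ⟨c * a.den, mul_ne_zero hc (by exact_mod_cast a.den_nz), a.num • y,
      N.smul_mem _ hy, ?_⟩
    rw [map_smul, e, ← Int.cast_smul_eq_zsmul ℚ, ← Rat.mul_den_eq_num]
    push_cast
    module

theorem finrank_rsp (N : Submodule ℤ (ι → ℤ)) : finrank ℤ N ≤ finrank ℚ (rsp N) := by
  let b := Module.finBasis ℤ N
  have h1 : LinearIndependent ℤ fun i => cst ℚ ι (b i) :=
    (b.linearIndependent.map' N.subtype N.ker_subtype).map' (cst ℚ ι)
      (LinearMap.ker_eq_bot.2 cst_inj)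
  rw [LinearIndependent.iff_fractionRing ℤ ℚ] at h1
  have h2 : LinearIndependent ℚ fun i =>
      (⟨cst ℚ ι (b i), 1, one_ne_zero, b i, (b i).2, by simp⟩ : rsp N) :=
    LinearIndependent.of_comp (rsp N).subtype h1
  simpa using h2.fintype_card_le_finrank

theorem rsp_sign [DecidableEq ι] (G : Matrix ι ι ℤ) (ε : ℤ) {N : Submodule ℤ (ι → ℤ)}
    (h : ∀ y ∈ N, y ≠ 0 → 0 < ε * fm ℤ G y y) {x : ι → ℚ} (hx : x ∈ rsp N) (h0 : x ≠ 0) :
    0 < ε * fm ℚ G x x := by
  obtain ⟨c, hc, y, hy, e⟩ := hx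
  have hc' : (c : ℚ) ≠ 0 := by exact_mod_cast hc
  have hy0 : y ≠ 0 := by
    rintro rfl
    rw [map_zero] at e
    exact smul_ne_zero hc' h0 e.symm
  have h1 : (0 : ℚ) < ε * fm ℚ G (cst ℚ ι y) (cst ℚ ι y) := by
    rw [fm_cst]
    exact_mod_cast h y hy hy0
  rw [e] at h1
  simp only [map_smul, LinearMap.smul_apply, smul_eq_mul] at h1
  have h2 : 0 < (c : ℚ) * c := mul_self_pos.2 hc'
  by_contra hh
  nlinarith [mul_nonneg h2.le (neg_nonneg.2 (not_lt.1 hh))]

theorem Met.fst {K : Type*} [Field K] {V W : Type*} [AddCommGroup V] [Module K V]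
    [AddCommGroup W] [Module K W] [FiniteDimensional K V] [FiniteDimensional K W]
    {B : V →ₗ[K] V →ₗ[K] K} {C : W →ₗ[K] W →ₗ[K] K} (h : Met (Wq.osum B C)) :
    ∃ Λ : Submodule K V, (∀ x ∈ Λ, ∀ y ∈ Λ, B x y = 0) ∧
      finrank K V ≤ 2 * finrank K Λ + finrank K W := by
  obtain ⟨Λ, h1, h2⟩ := h
  refine ⟨Λ.comap (LinearMap.inl K V W), fun x hx y hy => by simpa using h1 _ hx _ hy, ?_⟩
  have e1 := LinearMap.finrank_range_add_finrank_ker ((LinearMap.snd K V W).domRestrict Λ)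
  have e2 := Submodule.finrank_le (LinearMap.range ((LinearMap.snd K V W).domRestrict Λ))
  have e3 : finrank K (LinearMap.ker ((LinearMap.snd K V W).domRestrict Λ)) ≤
      finrank K (Λ.comap (LinearMap.inl K V W)) := by
    rw [← Submodule.finrank_map_subtype_eq,
      LinearEquiv.finrank_eq (Submodule.equivMapOfInjective (LinearMap.inl K V W)
        LinearMap.inl_injective (Λ.comap (LinearMap.inl K V W)))]
    apply Submodule.finrank_mono
    rintro _ ⟨⟨⟨x, y⟩, hx⟩, hk, rfl⟩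
    have hy : y = 0 := hk
    subst hy
    exact ⟨x, hx, rfl⟩
  rw [Module.finrank_prod] at h2
  omega

theorem unit_bound {α : Type} [Fintype α] [DecidableEq α] {G : Matrix α α ℤ} {k : ℕ} (ε : ℤ)
    (he : ε = 1 ∨ ε = -1) (h0 : ∀ _ : Fin k, (ε : ℚ) ≠ 0)
    (h : Met (osum (fm ℚ G) (Sp.dg (fun _ : Fin k => (ε : ℚ)) h0).B))
    {N : Submodule ℤ (α → ℤ)} (hN : ∀ y ∈ N, y ≠ 0 → 0 < ε * fm ℤ G y y) :
    2 * finrank ℤ N + k ≤ Fintype.card α := by
  have e := h.def_le ((rsp N).prod ⊤) ?_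
  · have e2 := finrank_rsp N
    rw [finrank_prodSub, Module.finrank_prod, finrank_top] at e
    simp only [Module.finrank_fintype_fun_eq_card, Fintype.card_fin] at e
    omega
  · rintro ⟨x, y⟩ hx hz
    rw [osum_apply, dg_apply, ← Finset.mul_sum] at hz
    have he2 : (ε : ℚ) * ε = 1 := by rcases he with rfl | rfl <;> norm_num
    have hz' : ε * fm ℚ G x x + ∑ i, y i * y i = 0 := by
      have := congrArg (fun t => (ε : ℚ) * t) hz
      simp only [mul_add, ← mul_assoc, he2, one_mul, mul_zero] at this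
      exact this
    have hy : 0 ≤ ∑ i, y i * y i := Finset.sum_nonneg fun i _ => mul_self_nonneg _
    have hx0 : x = 0 := by
      by_contra hx0
      have := rsp_sign G ε hN hx.1 hx0
      linarith
    subst hx0
    have hy0 : ∑ i, y i * y i = 0 := by simpa using hz'
    rw [Finset.sum_eq_zero_iff_of_nonneg fun i _ => mul_self_nonneg _] at hy0
    refine Prod.ext rfl (funext fun i => ?_)
    exact mul_self_eq_zero.1 (hy0 i (Finset.mem_univ i))

/-- matrix form: a unimodular form of signature `(p, q)` has an isotropic saturated sublattice of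
rank at least `min p q` -/
theorem exists_iso_mat {α : Type} [Fintype α] [DecidableEq α] {G : Matrix α α ℤ} (hs : G.IsSymm)
    (hd : IsUnit G.det) {P N : Submodule ℤ (α → ℤ)} (hP : ∀ y ∈ P, y ≠ 0 → 0 < fm ℤ G y y)
    (hN : ∀ y ∈ N, y ≠ 0 → fm ℤ G y y < 0) :
    ∃ Λ : Submodule ℤ (α → ℤ), Sat Λ ∧ (∀ x ∈ Λ, ∀ y ∈ Λ, fm ℤ G x y = 0) ∧
      min (finrank ℤ P) (finrank ℤ N) ≤ finrank ℤ Λ := by
  obtain ⟨k, ε, he, h⟩ := exists_unit hs hd
  obtain ⟨Λ, h1, h2⟩ := h.fst
  refine ⟨ipt Λ, fun c x hc hx => ipt_sat Λ c hc x hx, fun x hx y hy => ?_, ?_⟩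
  · have := h1 _ hx _ hy
    rwa [fm_cst, Int.cast_eq_zero] at this
  · have e1 := finrank_ipt Λ
    simp only [Module.finrank_fintype_fun_eq_card, Fintype.card_fin] at h2
    rcases he with rfl | rfl
    · have := unit_bound (N := P) 1 (Or.inl rfl) (by simp) (by simpa using h) (by simpa using hP)
      omega
    · have := unit_bound (N := N) (-1) (Or.inr rfl) (by simp) (by simpa using h)
        (by simpa using hN)
      omega

end Wq

theorem exists_iso {L : Type*} [AddCommGroup L] [Module.Free ℤ L] [Module.Finite ℤ L]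
    (B : LinearMap.BilinForm ℤ L) (hB : ∀ x y, B x y = B y x) (hu : Function.Bijective B)
    {p q : ℕ} (hs : Sig B p q) (hqp : q ≤ p) :
    ∃ Λ : Submodule ℤ L, Sat Λ ∧ (∀ x ∈ Λ, ∀ y ∈ Λ, B x y = 0) ∧ q ≤ finrank ℤ Λ := by
  obtain ⟨-, P, N, rfl, rfl, hP, hN⟩ := hs
  let b := Module.finBasis ℤ L
  let G : Matrix (Fin (finrank ℤ L)) (Fin (finrank ℤ L)) ℤ := fun i j => B (b i) (b j)
  have hG : ∀ x y, Wq.fm ℤ G (b.equivFun x) (b.equivFun y) = B x y := by
    intro x y
    rw [Wq.fm_apply]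
    conv_rhs => rw [← b.sum_repr x, ← b.sum_repr y]
    simp only [map_sum, map_smul, LinearMap.sum_apply, LinearMap.smul_apply, smul_eq_mul,
      Finset.mul_sum, Basis.equivFun_apply, Int.cast_id, G]
    rw [Finset.sum_comm]
    exact Finset.sum_congr rfl fun i _ => Finset.sum_congr rfl fun j _ => by ring
  have hsy : G.IsSymm := Matrix.IsSymm.ext fun i j => hB _ _
  have hd : IsUnit G.det := by
    have h1 := LinearEquiv.isUnit_det (LinearEquiv.ofBijective B hu) b b.dualBasis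
    have h2 : LinearMap.toMatrix b b.dualBasis (LinearEquiv.ofBijective B hu : L →ₗ[ℤ] _) = G := by
      ext i j
      simp [LinearMap.toMatrix_apply, G, hB (b i)]
    rwa [h2] at h1
  obtain ⟨Λ, h1, h2, h3⟩ := Wq.exists_iso_mat hsy hd
    (P := P.map (b.equivFun : L →ₗ[ℤ] _)) (N := N.map (b.equivFun : L →ₗ[ℤ] _))
    (by
      rintro _ ⟨x, hx, rfl⟩ h0
      have := hP x hx (by rintro rfl; exact h0 (map_zero _))
      rwa [← hG] at this)
    (by
      rintro _ ⟨x, hx, rfl⟩ h0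
      have := hN x hx (by rintro rfl; exact h0 (map_zero _))
      rwa [← hG] at this)
  refine ⟨Λ.map (b.equivFun.symm : _ →ₗ[ℤ] L), ?_, ?_, ?_⟩
  · rintro c x hc ⟨y, hy, e⟩
    refine ⟨b.equivFun x, h1 c _ hc ?_, b.equivFun.symm_apply_apply x⟩
    rw [← map_smul, ← e]
    simpa only [LinearEquiv.coe_coe, LinearEquiv.apply_symm_apply, SetLike.mem_coe] using hy
  · rintro _ ⟨x, hx, rfl⟩ _ ⟨y, hy, rfl⟩
    rw [← hG]
    simpa only [LinearEquiv.coe_coe, LinearEquiv.apply_symm_apply] using h2 x hx y hy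
  · rw [LinearEquiv.finrank_map_eq, LinearEquiv.finrank_map_eq, min_eq_right hqp] at h3
    rwa [LinearEquiv.finrank_map_eq]

end Vale.Agent.P287Q.Lat
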