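import Vale.Agent.P287Q.Lat.Defs

/-! # P287: lattice step, orthogonal sums -/

namespace Vale.Agent.P287Q.Lat

open Module

variable {L M : Type*} [AddCommGroup L] [AddCommGroup M]

theorem sumB_bij {B : LinearMap.BilinForm ℤ L} {C : LinearMap.BilinForm ℤ M}
    (hB : Function.Bijective B) (hC : Function.Bijective C) : Function.Bijective (sumB B C) := by
  constructor
  · refine (injective_iff_map_eq_zero _).2 fun x hx => ?_
    have h1 : B x.1 = B 0 := by
      ext y
      have := LinearMap.congr_fun hx (y, 0)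
      simpa using this
    have h2 : C x.2 = C 0 := by
      ext y
      have := LinearMap.congr_fun hx (0, y)
      simpa using this
    exact Prod.ext (hB.1 h1) (hC.1 h2)
  · intro f
    obtain ⟨a, ha⟩ := hB.2 (f.comp (LinearMap.inl ℤ L M))
    obtain ⟨b, hb⟩ := hC.2 (f.comp (LinearMap.inr ℤ L M))
    refine ⟨(a, b), LinearMap.ext fun y => ?_⟩
    rw [sumB_apply, ha, hb]
    simp only [LinearMap.comp_apply, LinearMap.inl_apply, LinearMap.inr_apply, ← map_add,
      Prod.mk_add_mk, add_zero, zero_add]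

theorem negI_bij (k : ℕ) : Function.Bijective (negI k) := by
  constructor
  · refine (injective_iff_map_eq_zero _).2 fun x hx => ?_
    funext i
    have := LinearMap.congr_fun hx (Pi.single i 1)
    simpa [Pi.single_apply] using this
  · intro f
    refine ⟨fun i => -f (Pi.single i 1), LinearMap.ext fun y => ?_⟩
    rw [negI_apply]
    conv_rhs => rw [pi_eq_sum_univ' y, map_sum]
    rw [← Finset.sum_neg_distrib]
    refine Finset.sum_congr rfl fun i _ => ?_
    rw [map_smul, smul_eq_mul]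
    ring

theorem negI_sig (k : ℕ) : Sig (negI k) 0 k := by
  refine ⟨by simp, ⊥, ⊤, by simp, by simp, fun x hx h0 => (h0 ((Submodule.mem_bot ℤ).1 hx)).elim,
    fun x _ h0 => ?_⟩
  rw [negI_apply, neg_lt_zero]
  obtain ⟨i, hi⟩ := Function.ne_iff.1 h0
  exact Finset.sum_pos' (fun j _ => mul_self_nonneg _)
    ⟨i, Finset.mem_univ _, mul_self_pos.2 hi⟩

theorem sum_finrank_prod [Module.Free ℤ L] [Module.Finite ℤ L] [Module.Free ℤ M]
    [Module.Finite ℤ M] (P : Submodule ℤ L) (Q : Submodule ℤ M) :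
    finrank ℤ (P.prod Q) = finrank ℤ P + finrank ℤ Q := by
  let e : P.prod Q ≃ₗ[ℤ] P × Q :=
    { toFun := fun x => (⟨x.1.1, x.2.1⟩, ⟨x.1.2, x.2.2⟩)
      invFun := fun y => ⟨(y.1.1, y.2.1), y.1.2, y.2.2⟩
      map_add' := fun _ _ => rfl
      map_smul' := fun _ _ => rfl
      left_inv := fun _ => rfl
      right_inv := fun _ => rfl }
  rw [e.finrank_eq, finrank_prod]

theorem Sig.sum [Module.Free ℤ L] [Module.Finite ℤ L] [Module.Free ℤ M] [Module.Finite ℤ M]
    {B : LinearMap.BilinForm ℤ L} {C : LinearMap.BilinForm ℤ M} {p q p' q' : ℕ}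
    (hB : Sig B p q) (hC : Sig C p' q') : Sig (sumB B C) (p + p') (q + q') := by
  obtain ⟨h1, P, N, hP, hN, hp, hn⟩ := hB
  obtain ⟨h1', P', N', hP', hN', hp', hn'⟩ := hC
  refine ⟨by rw [finrank_prod, h1, h1']; ring, P.prod P', N.prod N', ?_, ?_, ?_, ?_⟩
  · rw [sum_finrank_prod, hP, hP']
  · rw [sum_finrank_prod, hN, hN']
  · rintro ⟨x, y⟩ ⟨hx, hy⟩ h0
    rw [sumB_apply]
    by_cases hx0 : x = 0
    · have hy0 : y ≠ 0 := fun e => h0 (by rw [hx0, e]; rfl)
      have := hp' y hy hy0
      simpa [hx0] using this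
    · have h2 := hp x hx hx0
      by_cases hy0 : y = 0
      · simpa [hy0] using h2
      · exact add_pos h2 (hp' y hy hy0)
  · rintro ⟨x, y⟩ ⟨hx, hy⟩ h0
    rw [sumB_apply]
    by_cases hx0 : x = 0
    · have hy0 : y ≠ 0 := fun e => h0 (by rw [hx0, e]; rfl)
      have := hn' y hy hy0
      simpa [hx0] using this
    · have h2 := hn x hx hx0
      by_cases hy0 : y = 0
      · simpa [hy0] using h2
      · exact add_neg h2 (hn' y hy hy0)

theorem finrank_orth [Module.Free ℤ L] [Module.Finite ℤ L] (B : LinearMap.BilinForm ℤ L)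
    (A : Submodule ℤ L) :
    finrank ℤ L ≤ finrank ℤ (LinearMap.BilinForm.orthogonal B A) + finrank ℤ A := by
  let f : L →ₗ[ℤ] Module.Dual ℤ A := (B.domRestrict A).flip
  have hk : LinearMap.ker f = LinearMap.BilinForm.orthogonal B A := by
    ext x
    rw [LinearMap.mem_ker, LinearMap.BilinForm.mem_orthogonal_iff]
    constructor
    · intro h n hn
      exact LinearMap.congr_fun h ⟨n, hn⟩
    · intro h
      exact LinearMap.ext fun n => h n.1 n.2
  have h1 := (LinearMap.ker f).finrank_quotient_add_finrank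
  rw [f.quotKerEquivRange.finrank_eq] at h1
  have h2 : finrank ℤ (LinearMap.range f) ≤ finrank ℤ (Module.Dual ℤ A) :=
    Submodule.finrank_le _
  have h3 : finrank ℤ (Module.Dual ℤ A) = finrank ℤ A := by
    rw [Module.finrank_linearMap_self]
  rw [hk] at h1
  omega

theorem sat_orth (B : LinearMap.BilinForm ℤ L) (A : Submodule ℤ L) :
    Sat (LinearMap.BilinForm.orthogonal B A) := by
  intro k x hk hx
  rw [LinearMap.BilinForm.mem_orthogonal_iff] at hx ⊢
  intro n hn
  have h : B n (k • x) = 0 := hx n hn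
  rw [map_smul, smul_eq_mul] at h
  exact (mul_eq_zero.1 h).resolve_left hk

end Vale.Agent.P287Q.Lat
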