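import Vale.Agent.P287Q.Lat.Iso
import Vale.Agent.P287Q.Lat.Hf
import Vale.Agent.P287Q.Lat.Sum

/-! # P287: lattice step, isotropic vectors over the rationals and modulo primes -/

namespace Vale.Agent.P287Q.Lat

open Module

section
variable {L M : Type*} [AddCommGroup L] [AddCommGroup M]

/-- The three coordinates attached to `(x, s, t)`; their sum is `x · η`. -/
def keyU (B : LinearMap.BilinForm ℤ L) (η : L) (A : Submodule ℤ L) :
    (A × ℤ × ℤ) →ₗ[ℤ] (Fin 3 → ℤ) where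
  toFun d := ![B d.1 η - d.2.1 - d.2.2, d.2.1, d.2.2]
  map_add' d e := by
    ext i
    fin_cases i <;> simp
    ring
  map_smul' c d := by
    ext i
    fin_cases i <;> simp
    ring

theorem keyU_sum (B : LinearMap.BilinForm ℤ L) (η : L) (A : Submodule ℤ L) (d : A × ℤ × ℤ) :
    ∑ i, keyU B η A d i = B d.1 η := by
  simp [keyU, Fin.sum_univ_three]
  ring

/-- The map `(t, x, s, s') ↦ (f t, t + x, u)`. -/
def keyφ (B : LinearMap.BilinForm ℤ L) (η : L) (A T : Submodule ℤ L) (f : T →ₗ[ℤ] M) :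
    (T × A × ℤ × ℤ) →ₗ[ℤ] (M × L × (Fin 3 → ℤ)) where
  toFun d := (f d.1, (d.1 : L) + (d.2.1 : L), keyU B η A d.2)
  map_add' d e := by
    refine Prod.ext (by simp) (Prod.ext ?_ (by simp))
    simp only [Prod.fst_add, Prod.snd_add, Submodule.coe_add]
    abel
  map_smul' c d := by
    refine Prod.ext (by simp) (Prod.ext ?_ (by simp))
    simp only [Prod.smul_fst, Prod.smul_snd, Submodule.coe_smul, RingHom.id_apply, smul_add]

theorem keyφ_apply (B : LinearMap.BilinForm ℤ L) (η : L) (A T : Submodule ℤ L) (f : T →ₗ[ℤ] M)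
    (d : T × A × ℤ × ℤ) :
    keyφ B η A T f d = (f d.1, (d.1 : L) + (d.2.1 : L), keyU B η A d.2) := rfl

theorem keyφ_form (B : LinearMap.BilinForm ℤ L) (hB : ∀ x y, B x y = B y x) (η : L)
    (A : Submodule ℤ L) (C : LinearMap.BilinForm ℤ M)
    (f : LinearMap.BilinForm.orthogonal B A →ₗ[ℤ] M) (hf : ∀ x y, C (f x) (f y) = - B x y)
    (d e : LinearMap.BilinForm.orthogonal B A × A × ℤ × ℤ) :
    sumB C (sumB B (negI 3)) (keyφ B η A _ f d) (keyφ B η A _ f e) =
      B d.2.1 e.2.1 - ∑ i, keyU B η A d.2 i * keyU B η A e.2 i := by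
  have h1 : B (d.2.1 : L) (e.1 : L) = 0 := e.1.2 _ d.2.1.2
  have h2 : B (d.1 : L) (e.2.1 : L) = 0 := by rw [hB]; exact d.1.2 _ e.2.1.2
  simp only [sumB_apply, keyφ_apply, negI_apply, hf, map_add, LinearMap.add_apply, h1, h2]
  ring

theorem keyφ_prim (B : LinearMap.BilinForm ℤ L) (η : L) (A T : Submodule ℤ L) (hA : Sat A)
    (f : T →ₗ[ℤ] M) (hi : Function.Injective f) (hs : Sat (LinearMap.range f)) {p : ℤ}
    (hp : p ≠ 0) : Prim p (keyφ B η A T f) := by
  rintro ⟨t, x, s, s'⟩ ⟨m, l, u⟩ h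
  rw [keyφ_apply] at h
  have h1 : f t = p • m := congrArg Prod.fst h
  have h2 : (t : L) + (x : L) = p • l := congrArg (fun z => z.2.1) h
  have h3 : keyU B η A (x, s, s') = p • u := congrArg (fun z => z.2.2) h
  obtain ⟨t', ht'⟩ : m ∈ LinearMap.range f := hs p m hp (h1 ▸ LinearMap.mem_range_self f t)
  have ht : t = p • t' := hi (by rw [h1, map_smul, ht'])
  have hx : (x : L) = p • (l - (t' : L)) := by
    rw [smul_sub, ← h2, ht]; simp
  have hm : l - (t' : L) ∈ A := hA p _ hp (hx ▸ x.2)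
  refine ⟨(t', ⟨_, hm⟩, u 1, u 2), Prod.ext ht (Prod.ext (Subtype.ext hx) (Prod.ext ?_ ?_))⟩
  · simpa [keyU] using congrFun h3 1
  · simpa [keyU] using congrFun h3 2

theorem keyφ_inj (B : LinearMap.BilinForm ℤ L) (η : L) (A T : Submodule ℤ L)
    (f : T →ₗ[ℤ] M) (hi : Function.Injective f) : Function.Injective (keyφ B η A T f) := by
  rw [← LinearMap.ker_eq_bot, LinearMap.ker_eq_bot']
  rintro ⟨t, x, s, s'⟩ h
  rw [keyφ_apply] at h
  have h1 : f t = 0 := congrArg Prod.fst h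
  have h2 : (t : L) + (x : L) = 0 := congrArg (fun z => z.2.1) h
  have h3 : keyU B η A (x, s, s') = 0 := congrArg (fun z => z.2.2) h
  have ht : t = 0 := hi (by rw [h1, map_zero])
  have hx : x = 0 := Subtype.ext (by simpa [ht] using h2)
  refine Prod.ext ht (Prod.ext hx (Prod.ext ?_ ?_))
  · simpa [keyU] using congrFun h3 1
  · simpa [keyU] using congrFun h3 2

end

theorem key {L M : Type*} [AddCommGroup L] [Module.Free ℤ L] [Module.Finite ℤ L]
    [AddCommGroup M] [Module.Free ℤ M] [Module.Finite ℤ M]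
    (B : LinearMap.BilinForm ℤ L) (hB : ∀ x y, B x y = B y x) (uB : Function.Bijective B)
    (sB : Sig B 21 2) (η : L) (A : Submodule ℤ L) (hA : Sat A) (hηA : η ∈ A)
    (C : LinearMap.BilinForm ℤ M) (hC : ∀ x y, C x y = C y x) (uC : Function.Bijective C)
    (n : ℕ) (hn : n ≤ 19) (sC : Sig C 3 n)
    (f : LinearMap.BilinForm.orthogonal B A →ₗ[ℤ] M) (hf : ∀ x y, C (f x) (f y) = - B x y)
    (hi : Function.Injective f) (hs : Sat (LinearMap.range f)) :
    K0 (LinearMap.BilinForm.restrict B A) ⟨η, hηA⟩ ∧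
      ∀ p : ℕ, p.Prime → Kp (LinearMap.BilinForm.restrict B A) ⟨η, hηA⟩ p := by
  have hG : ∀ x y, sumB C (sumB B (negI 3)) x y = sumB C (sumB B (negI 3)) y x := by
    intro x y
    simp only [sumB_apply, negI_apply, hC x.1, hB x.2.1, mul_comm (x.2.2 _)]
  have uG := sumB_bij uC (sumB_bij uB (negI_bij 3))
  have sG := sC.sum (sB.sum (negI_sig 3))
  obtain ⟨Λ, hS, hΛ, hq⟩ := exists_iso _ hG uG sG (by omega)
  have hT := finrank_orth B A
  have hr : finrank ℤ (M × L × (Fin 3 → ℤ)) < finrank ℤ Λ +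
      finrank ℤ (LinearMap.BilinForm.orthogonal B A × A × ℤ × ℤ) := by
    have h1 := sG.1
    have h2 := sB.1
    rw [finrank_prod (M := LinearMap.BilinForm.orthogonal B A), finrank_prod (M := A),
      finrank_prod (M := ℤ), finrank_self]
    omega
  refine ⟨?_, fun p hp => ?_⟩
  · obtain ⟨d, e, h1, h2⟩ := hl_zero _ hG uG Λ hΛ _ (keyφ_inj B η A _ f hi) hr
    have h3 := hΛ _ h1 _ h1
    rw [keyφ_form B hB η A C f hf] at h2 h3
    exact ⟨d.2.1, e.2.1, keyU B η A d.2, keyU B η A e.2, keyU_sum B η A _, keyU_sum B η A _,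
      sub_eq_zero.1 h3, sub_ne_zero.1 h2⟩
  · have hp0 : (p : ℤ) ≠ 0 := Int.natCast_ne_zero.2 hp.ne_zero
    obtain ⟨d, e, y, h1, h2⟩ := hl_mod _ hG uG Λ hS hΛ hp _ (keyφ_prim B η A _ hA f hi hs hp0) hr
    have h3 := hΛ _ h1 _ h1
    simp only [map_add, map_smul, LinearMap.add_apply, LinearMap.smul_apply, smul_eq_mul] at h3
    rw [keyφ_form B hB η A C f hf, hG y (keyφ B η A _ f d)] at h3
    rw [keyφ_form B hB η A C f hf] at h2
    refine ⟨d.2.1, e.2.1, keyU B η A d.2, keyU B η A e.2,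
      - sumB C (sumB B (negI 3)) (keyφ B η A _ f d) y, - sumB C (sumB B (negI 3)) y y,
      keyU_sum B η A _, keyU_sum B η A _, ?_, h2⟩
    change B d.2.1 d.2.1 - _ = _
    linear_combination h3

end Vale.Agent.P287Q.Lat
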