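import Mathlib

/-! Metabolic forms, the Witt group of the rationals (as a quotient), rank one classes. -/

namespace Vale.Agent.P287Q.Lat.Wq

open Module

section Met

variable {K : Type*} [Field K] {V W : Type*} [AddCommGroup V] [Module K V] [AddCommGroup W]
  [Module K W]

/-- there is an isotropic subspace of at least half the dimension -/
def Met (B : V →ₗ[K] V →ₗ[K] K) : Prop :=
  ∃ Λ : Submodule K V, (∀ x ∈ Λ, ∀ y ∈ Λ, B x y = 0) ∧ finrank K V ≤ 2 * finrank K Λ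

/-- orthogonal sum -/
def osum (B : V →ₗ[K] V →ₗ[K] K) (C : W →ₗ[K] W →ₗ[K] K) : (V × W) →ₗ[K] (V × W) →ₗ[K] K :=
  B.compl₁₂ (LinearMap.fst K V W) (LinearMap.fst K V W) +
    C.compl₁₂ (LinearMap.snd K V W) (LinearMap.snd K V W)

@[simp] theorem osum_apply (B : V →ₗ[K] V →ₗ[K] K) (C : W →ₗ[K] W →ₗ[K] K) (x y : V × W) :
    osum B C x y = B x.1 y.1 + C x.2 y.2 := rfl

theorem osum_nd {B : V →ₗ[K] V →ₗ[K] K} {C : W →ₗ[K] W →ₗ[K] K}
    (hB : ∀ x, (∀ y, B x y = 0) → x = 0) (hC : ∀ x, (∀ y, C x y = 0) → x = 0) (x : V × W)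
    (h : ∀ y, osum B C x y = 0) : x = 0 := by
  refine Prod.ext (hB _ fun y => ?_) (hC _ fun y => ?_)
  · simpa using h (y, 0)
  · simpa using h (0, y)

/-- the orthogonal of a subspace -/
def perp (B : V →ₗ[K] V →ₗ[K] K) (Λ : Submodule K V) : Submodule K V :=
  LinearMap.BilinForm.orthogonal B Λ

theorem mem_perp {B : V →ₗ[K] V →ₗ[K] K} {Λ : Submodule K V} {x : V} :
    x ∈ perp B Λ ↔ ∀ y ∈ Λ, B y x = 0 := Iff.rfl

variable [FiniteDimensional K V] [FiniteDimensional K W]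

theorem finrank_perp {B : V →ₗ[K] V →ₗ[K] K} (hs : ∀ x y, B x y = B y x)
    (hB : ∀ x, (∀ y, B x y = 0) → x = 0) (Λ : Submodule K V) :
    finrank K Λ + finrank K (perp B Λ) = finrank K V := by
  have h : LinearMap.BilinForm.Nondegenerate B :=
    ⟨hB, fun x hx => hB x fun y => by rw [hs]; exact hx y⟩
  have h1 := LinearMap.BilinForm.finrank_orthogonal h Λ
  have h2 := Submodule.finrank_le Λ
  unfold perp
  omega

theorem iso_le {B : V →ₗ[K] V →ₗ[K] K} (hs : ∀ x y, B x y = B y x)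
    (hB : ∀ x, (∀ y, B x y = 0) → x = 0) {Λ : Submodule K V}
    (h : ∀ x ∈ Λ, ∀ y ∈ Λ, B x y = 0) : 2 * finrank K Λ ≤ finrank K V := by
  have h1 := finrank_perp hs hB Λ
  have h2 : Λ ≤ perp B Λ := fun x hx => mem_perp.2 fun y hy => h y hy x hx
  have h3 := Submodule.finrank_mono h2
  omega

theorem perp_eq {B : V →ₗ[K] V →ₗ[K] K} (hs : ∀ x y, B x y = B y x)
    (hB : ∀ x, (∀ y, B x y = 0) → x = 0) {Λ : Submodule K V}
    (h : ∀ x ∈ Λ, ∀ y ∈ Λ, B x y = 0) (hd : finrank K V ≤ 2 * finrank K Λ) : perp B Λ = Λ := by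
  have h1 := finrank_perp hs hB Λ
  have h2 : Λ ≤ perp B Λ := fun x hx => mem_perp.2 fun y hy => h y hy x hx
  exact (Submodule.eq_of_le_of_finrank_le h2 (by omega)).symm

omit [FiniteDimensional K V] [FiniteDimensional K W] in
theorem Met.of_equiv {B : V →ₗ[K] V →ₗ[K] K} {C : W →ₗ[K] W →ₗ[K] K} (e : V ≃ₗ[K] W)
    (h : ∀ x y, C (e x) (e y) = B x y) (hB : Met B) : Met C := by
  obtain ⟨Λ, h1, h2⟩ := hB
  refine ⟨Λ.map (e : V →ₗ[K] W), ?_, ?_⟩
  · rintro _ ⟨x, hx, rfl⟩ _ ⟨y, hy, rfl⟩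
    exact (h x y).trans (h1 x hx y hy)
  · rw [LinearEquiv.finrank_map_eq, ← e.finrank_eq]; exact h2

omit [FiniteDimensional K V] in
theorem Met.neg {B : V →ₗ[K] V →ₗ[K] K} (hB : Met B) : Met (-B) := by
  obtain ⟨Λ, h1, h2⟩ := hB
  exact ⟨Λ, fun x hx y hy => by simp [h1 x hx y hy], h2⟩

theorem finrank_prodSub (Λ : Submodule K V) (I : Submodule K W) :
    finrank K (Λ.prod I) = finrank K Λ + finrank K I := by
  rw [← Module.finrank_prod]
  refine LinearEquiv.finrank_eq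
    { toFun := fun x => (⟨x.1.1, x.2.1⟩, ⟨x.1.2, x.2.2⟩)
      map_add' := fun _ _ => rfl
      map_smul' := fun _ _ => rfl
      invFun := fun x => ⟨(x.1.1, x.2.1), x.1.2, x.2.2⟩
      left_inv := fun _ => rfl
      right_inv := fun _ => rfl }

theorem Met.osum {B : V →ₗ[K] V →ₗ[K] K} {C : W →ₗ[K] W →ₗ[K] K} (hB : Met B) (hC : Met C) :
    Met (osum B C) := by
  obtain ⟨Λ, h1, h2⟩ := hB
  obtain ⟨I, h3, h4⟩ := hC
  refine ⟨Λ.prod I, fun x hx y hy => ?_, ?_⟩
  · rw [osum_apply, h1 _ hx.1 _ hy.1, h3 _ hx.2 _ hy.2, add_zero]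
  · rw [finrank_prodSub, Module.finrank_prod]; omega

theorem Met.cancel {B : V →ₗ[K] V →ₗ[K] K} {C : W →ₗ[K] W →ₗ[K] K}
    (hsB : ∀ x y, B x y = B y x) (hB : ∀ x, (∀ y, B x y = 0) → x = 0)
    (hsC : ∀ x y, C x y = C y x) (hC : ∀ x, (∀ y, C x y = 0) → x = 0)
    (h : Met (Wq.osum B C)) (h' : Met C) : Met B := by
  obtain ⟨Λ, h1, h2⟩ := h
  obtain ⟨I, h3, h4⟩ := h'
  have hs : ∀ x y, Wq.osum B C x y = Wq.osum B C y x := fun x y => by
    rw [osum_apply, osum_apply, hsB, hsC]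
  have hn := osum_nd hB hC
  set J : Submodule K (V × W) := (⊥ : Submodule K V).prod I with hJ
  set Λ' : Submodule K (V × W) := perp (Wq.osum B C) (Λ ⊔ J) with hΛ'
  have hΛ : Λ' ≤ Λ := by
    intro x hx
    rw [← perp_eq hs hn h1 h2]
    exact mem_perp.2 fun y hy => mem_perp.1 hx y (Submodule.mem_sup_left hy)
  have hI : ∀ x ∈ Λ', x.2 ∈ I := by
    intro x hx
    rw [← perp_eq hsC hC h3 h4]
    refine mem_perp.2 fun y hy => ?_
    have := mem_perp.1 hx (0, y) (Submodule.mem_sup_right ⟨Submodule.zero_mem _, hy⟩)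
    simpa using this
  refine ⟨Λ'.map (LinearMap.fst K V W), ?_, ?_⟩
  · rintro _ ⟨x, hx, rfl⟩ _ ⟨y, hy, rfl⟩
    have := h1 x (hΛ hx) y (hΛ hy)
    rw [osum_apply, h3 _ (hI x hx) _ (hI y hy), add_zero] at this
    exact this
  · have e1 := finrank_perp hs hn (Λ ⊔ J)
    have e2 := Submodule.finrank_sup_add_finrank_inf_eq Λ J
    have e3 : finrank K J = finrank K I := by rw [hJ, finrank_prodSub]; simp
    have e4 := LinearMap.finrank_range_add_finrank_ker ((LinearMap.fst K V W).domRestrict Λ')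
    rw [LinearMap.range_domRestrict] at e4
    have e5 : finrank K (LinearMap.ker ((LinearMap.fst K V W).domRestrict Λ')) ≤
        finrank K (Λ ⊓ J : Submodule K (V × W)) := by
      rw [← Submodule.finrank_map_subtype_eq]
      apply Submodule.finrank_mono
      rintro _ ⟨x, hx, rfl⟩
      exact ⟨hΛ x.2, by simpa using hx, hI _ x.2⟩
    have e6 := iso_le hs hn h1
    have e7 := iso_le hsC hC h3
    rw [Module.finrank_prod] at e1 h2 e6
    rw [← hΛ'] at e1
    omega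

omit [FiniteDimensional K W] in
theorem met_graph {B : V →ₗ[K] V →ₗ[K] K} {C : W →ₗ[K] W →ₗ[K] K} [Module.Finite K W]
    (f : V →ₗ[K] W) (h : ∀ x y, C (f x) (f y) = B x y) (hd : finrank K W ≤ finrank K V) :
    Met (osum B (-C)) := by
  refine ⟨LinearMap.range (LinearMap.id.prod f), ?_, ?_⟩
  · rintro _ ⟨x, rfl⟩ _ ⟨y, rfl⟩
    simp [h]
  · rw [LinearMap.finrank_range_of_inj, Module.finrank_prod]
    · omega
    · intro x y hxy
      exact congrArg Prod.fst hxy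

/-- a definite subspace meets an isotropic subspace trivially -/
theorem Met.def_le {B : V →ₗ[K] V →ₗ[K] K} (h : Met B) (P : Submodule K V)
    (hP : ∀ x ∈ P, B x x = 0 → x = 0) : 2 * finrank K P ≤ finrank K V := by
  obtain ⟨Λ, h1, h2⟩ := h
  have e1 := Submodule.finrank_sup_add_finrank_inf_eq Λ P
  have e2 : Λ ⊓ P = ⊥ := by
    rw [eq_bot_iff]
    intro x hx
    exact hP x hx.2 (h1 x hx.1 x hx.1)
  have e3 := Submodule.finrank_le (Λ ⊔ P)
  rw [e2, finrank_bot] at e1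
  omega

end Met

/-- a rational quadratic space -/
structure Sp where
  V : Type
  [ac : AddCommGroup V]
  [md : Module ℚ V]
  [fd : FiniteDimensional ℚ V]
  B : V →ₗ[ℚ] V →ₗ[ℚ] ℚ
  sy : ∀ x y, B x y = B y x
  nd : ∀ x, (∀ y, B x y = 0) → x = 0

attribute [instance] Sp.ac Sp.md Sp.fd

namespace Sp

/-- orthogonal sum -/
abbrev add (X Y : Sp) : Sp where
  V := X.V × Y.V
  B := osum X.B Y.B
  sy x y := by rw [osum_apply, osum_apply, X.sy, Y.sy]
  nd := osum_nd X.nd Y.nd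

/-- the opposite form -/
abbrev neg (X : Sp) : Sp where
  V := X.V
  B := -X.B
  sy x y := by simp [X.sy x y]
  nd x h := X.nd x fun y => by simpa using h y

/-- the zero space -/
abbrev zero : Sp where
  V := PUnit
  B := 0
  sy _ _ := rfl
  nd _ _ := rfl

theorem met_refl (X : Sp) : Met (osum X.B (-X.B)) :=
  met_graph LinearMap.id (fun _ _ => rfl) le_rfl

theorem met_symm {X Y : Sp} (h : Met (osum X.B (-Y.B))) : Met (osum Y.B (-X.B)) :=
  h.neg.of_equiv (LinearEquiv.prodComm ℚ _ _) fun x y => by simp [add_comm]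

theorem met_trans {X Y Z : Sp} (h : Met (osum X.B (-Y.B))) (h' : Met (osum Y.B (-Z.B))) :
    Met (osum X.B (-Z.B)) := by
  refine Met.cancel (C := osum (-Y.B) Y.B) (X.add Z.neg).sy (X.add Z.neg).nd (Y.neg.add Y).sy
    (Y.neg.add Y).nd ?_ ?_
  · refine (h.osum h').of_equiv
      ((LinearEquiv.refl ℚ _).prodCongr (LinearEquiv.prodComm ℚ _ _) ≪≫ₗ
        LinearEquiv.prodProdProdComm ℚ _ _ _ _) fun x y => ?_
    simp
    ring
  · have := met_refl Y.neg
    rwa [show -Y.neg.B = Y.B from neg_neg _] at this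

instance st : Setoid Sp where
  r X Y := Met (osum X.B (-Y.B))
  iseqv := ⟨met_refl, met_symm, met_trans⟩

end Sp

/-- the Witt group -/
def WQ : Type 1 := Quotient Sp.st

/-- the class of a space -/
def cls (X : Sp) : WQ := Quotient.mk _ X

theorem cls_eq_iff {X Y : Sp} : cls X = cls Y ↔ Met (osum X.B (-Y.B)) := Quotient.eq

theorem cls_eq_of_map {X Y : Sp} (f : X.V →ₗ[ℚ] Y.V) (h : ∀ x y, Y.B (f x) (f y) = X.B x y)
    (hd : finrank ℚ Y.V ≤ finrank ℚ X.V) : cls X = cls Y :=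
  cls_eq_iff.2 (met_graph f h hd)

theorem cls_eq_of_equiv {X Y : Sp} (f : X.V ≃ₗ[ℚ] Y.V) (h : ∀ x y, Y.B (f x) (f y) = X.B x y) :
    cls X = cls Y :=
  cls_eq_of_map (f : X.V →ₗ[ℚ] Y.V) h f.finrank_eq.ge

theorem cls_surj (x : WQ) : ∃ X, x = cls X := by
  obtain ⟨X, h⟩ := Quotient.exists_rep x
  exact ⟨X, h.symm⟩

instance : Add WQ := ⟨Quotient.map₂ Sp.add (fun X X' h Y Y' h' =>
  (Met.osum h h').of_equiv (LinearEquiv.prodProdProdComm ℚ _ _ _ _) fun x y => by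
    simp
    ring)⟩

instance : Neg WQ := ⟨Quotient.map Sp.neg (fun X X' h =>
  (Met.neg h).of_equiv (LinearEquiv.refl ℚ _) fun x y => by
    simp
    ring)⟩

instance : Zero WQ := ⟨cls Sp.zero⟩

theorem cls_add' (X Y : Sp) : cls (X.add Y) = cls X + cls Y := rfl
theorem cls_neg' (X : Sp) : cls X.neg = - cls X := rfl

theorem cls_eq_zero' {X : Sp} : cls X = 0 ↔ Met X.B := by
  change cls X = cls Sp.zero ↔ _
  rw [cls_eq_iff]
  constructor
  · intro h
    exact h.of_equiv (LinearEquiv.prodUnique (R := ℚ) (M := X.V) (M₂ := PUnit)) fun x y => by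
      simp
  · intro h
    exact h.of_equiv (LinearEquiv.prodUnique (R := ℚ) (M := X.V) (M₂ := PUnit)).symm fun x y => by
      simp

instance : AddCommGroup WQ where
  add_assoc x y z := by
    obtain ⟨X, rfl⟩ := cls_surj x
    obtain ⟨Y, rfl⟩ := cls_surj y
    obtain ⟨Z, rfl⟩ := cls_surj z
    exact cls_eq_of_equiv (X := (X.add Y).add Z) (Y := X.add (Y.add Z))
      (LinearEquiv.prodAssoc ℚ _ _ _) fun x y => by
        simp [LinearEquiv.prodAssoc, add_assoc]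
  zero_add x := by
    obtain ⟨X, rfl⟩ := cls_surj x
    exact cls_eq_of_equiv (X := Sp.zero.add X) (Y := X)
      (LinearEquiv.uniqueProd (R := ℚ) (M := X.V) (M₂ := PUnit)) fun x y => by
        simp
  add_zero x := by
    obtain ⟨X, rfl⟩ := cls_surj x
    exact cls_eq_of_equiv (X := X.add Sp.zero) (Y := X)
      (LinearEquiv.prodUnique (R := ℚ) (M := X.V) (M₂ := PUnit)) fun x y => by
        simp
  nsmul := nsmulRec
  zsmul := zsmulRec
  neg_add_cancel x := by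
    obtain ⟨X, rfl⟩ := cls_surj x
    refine (cls_eq_zero' (X := X.neg.add X)).2 ?_
    have := Sp.met_refl X.neg
    rwa [show -X.neg.B = X.B from neg_neg _] at this
  add_comm x y := by
    obtain ⟨X, rfl⟩ := cls_surj x
    obtain ⟨Y, rfl⟩ := cls_surj y
    exact cls_eq_of_equiv (X := X.add Y) (Y := Y.add X) (LinearEquiv.prodComm ℚ _ _) fun x y => by
      simp [add_comm]

theorem cls_add (X Y : Sp) : cls (X.add Y) = cls X + cls Y := rfl
theorem cls_neg (X : Sp) : cls X.neg = - cls X := rfl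
theorem cls_eq_zero {X : Sp} : cls X = 0 ↔ Met X.B := cls_eq_zero'

/-- the line with form `a x y` -/
abbrev Sp.ln (a : ℚ) (h : a ≠ 0) : Sp where
  V := ℚ
  B := a • LinearMap.mul ℚ ℚ
  sy x y := by simp [mul_comm]
  nd x hx := by simpa [h] using hx 1

/-- the class of a rank one form -/
noncomputable def d (a : ℚ) : WQ := if h : a = 0 then 0 else cls (Sp.ln a h)

theorem d_eq {a : ℚ} (h : a ≠ 0) : d a = cls (Sp.ln a h) := dif_neg h

theorem d_mul_sq (a : ℚ) {s : ℚ} (hs : s ≠ 0) : d (a * s ^ 2) = d a := by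
  by_cases h : a = 0
  · simp [h]
  rw [d_eq h, d_eq (mul_ne_zero h (pow_ne_zero 2 hs))]
  refine cls_eq_of_map (s • LinearMap.id : ℚ →ₗ[ℚ] ℚ) (fun x y => ?_) le_rfl
  simp
  ring

theorem d_neg (a : ℚ) : d (-a) = - d a := by
  by_cases h : a = 0
  · simp [h, d]
  rw [d_eq h, d_eq (neg_ne_zero.2 h), ← cls_neg]
  refine cls_eq_of_map (LinearMap.id : ℚ →ₗ[ℚ] ℚ) (fun x y => ?_) le_rfl
  simp

theorem d_add {a b : ℚ} (ha : a ≠ 0) (hb : b ≠ 0) (hab : a + b ≠ 0) :
    d a + d b = d (a + b) + d (a * b * (a + b)) := by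
  rw [d_eq ha, d_eq hb, d_eq hab, d_eq (mul_ne_zero (mul_ne_zero ha hb) hab), ← cls_add,
    ← cls_add]
  symm
  refine cls_eq_of_map
    ((LinearMap.fst ℚ ℚ ℚ + b • LinearMap.snd ℚ ℚ ℚ).prod
      (LinearMap.fst ℚ ℚ ℚ - a • LinearMap.snd ℚ ℚ ℚ) : ℚ × ℚ →ₗ[ℚ] ℚ × ℚ) (fun x y => ?_) le_rfl
  simp
  ring

/-- a diagonal form -/
abbrev Sp.dg {n : ℕ} (a : Fin n → ℚ) (h : ∀ i, a i ≠ 0) : Sp where
  V := Fin n → ℚ
  B := ∑ i, a i • (LinearMap.mul ℚ ℚ).compl₁₂ (LinearMap.proj i) (LinearMap.proj i)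
  sy x y := by simp [LinearMap.sum_apply, mul_comm]
  nd x hx := by
    funext i
    have := hx (Pi.single i 1)
    simp only [LinearMap.sum_apply, LinearMap.smul_apply, LinearMap.compl₁₂_apply,
      LinearMap.proj_apply, LinearMap.mul_apply', smul_eq_mul] at this
    rw [Finset.sum_eq_single i (fun j _ hj => by simp [hj]) (by simp)] at this
    simpa [h i] using this

theorem dg_apply {n : ℕ} (a : Fin n → ℚ) (h : ∀ i, a i ≠ 0) (x y : Fin n → ℚ) :
    (Sp.dg a h).B x y = ∑ i, a i * (x i * y i) := by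
  simp [LinearMap.sum_apply]

theorem cls_dg : ∀ {n : ℕ} (a : Fin n → ℚ) (h : ∀ i, a i ≠ 0), cls (Sp.dg a h) = ∑ i, d (a i)
  | 0, a, h => by
    rw [Finset.univ_eq_empty, Finset.sum_empty, cls_eq_zero]
    exact ⟨⊥, by simp, by simp⟩
  | n + 1, a, h => by
    rw [Fin.sum_univ_succ, ← cls_dg (fun i => a i.succ) (fun i => h _), d_eq (h 0), ← cls_add]
    refine cls_eq_of_map
      ((LinearMap.proj 0).prod (LinearMap.pi fun i => LinearMap.proj (Fin.succ i)) :
        (Fin (n + 1) → ℚ) →ₗ[ℚ] ℚ × (Fin n → ℚ)) (fun x y => ?_) ?_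
    · rw [dg_apply, Fin.sum_univ_succ]
      change osum _ _ _ _ = _
      rw [osum_apply, dg_apply]
      simp
    · change finrank ℚ (ℚ × (Fin n → ℚ)) ≤ finrank ℚ (Fin (n + 1) → ℚ)
      simp [add_comm]

theorem exists_dg (X : Sp) : ∃ (n : ℕ) (a : Fin n → ℚ), (∀ i, a i ≠ 0) ∧ cls X = ∑ i, d (a i) := by
  have : Invertible (2 : ℚ) := invertibleOfNonzero two_ne_zero
  obtain ⟨v, hv⟩ := LinearMap.BilinForm.exists_orthogonal_basis (B := X.B) ⟨fun x y => X.sy x y⟩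
  have hv' := LinearMap.isOrthoᵢ_def.1 hv
  have h0 : ∀ i, X.B (v i) (v i) ≠ 0 := by
    intro i hi
    refine v.ne_zero i (X.nd _ fun y => ?_)
    rw [← v.sum_repr y, map_sum]
    refine Finset.sum_eq_zero fun j _ => ?_
    by_cases hj : i = j
    · subst hj; simp [hi]
    · simp [hv' i j hj]
  refine ⟨_, fun i => X.B (v i) (v i), h0, ?_⟩
  rw [← cls_dg _ h0]
  symm
  refine cls_eq_of_equiv v.equivFun.symm fun x y => ?_
  rw [dg_apply]
  simp only [Basis.equivFun_symm_apply, map_sum, map_smul, LinearMap.sum_apply,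
    LinearMap.smul_apply, smul_eq_mul]
  refine Finset.sum_congr rfl fun i _ => ?_
  rw [Finset.sum_eq_single i (fun j _ hj => by simp [hv' j i hj]) (by simp)]
  ring

end Vale.Agent.P287Q.Lat.Wq
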