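import Vale.Agent.P287Q.Lat.WqA

/-! Integral matrices in the Witt group, reduction modulo a prime. -/

namespace Vale.Agent.P287Q.Lat.Wq

open Module Matrix

section Red

variable {ι : Type*} [Fintype ι]

/-- coordinatewise cast of an integral vector -/
def cst (R : Type*) [Ring R] (ι : Type*) : (ι → ℤ) →ₗ[ℤ] (ι → R) where
  toFun x i := (x i : R)
  map_add' x y := by funext i; simp
  map_smul' c x := by funext i; simp

omit [Fintype ι] in
@[simp] theorem cst_apply (R : Type*) [Ring R] (x : ι → ℤ) (i : ι) : cst R ι x i = (x i : R) :=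
  rfl

theorem exists_mul_cst (x : ι → ℚ) : ∃ (c : ℤ) (y : ι → ℤ), c ≠ 0 ∧ cst ℚ ι y = (c : ℚ) • x := by
  obtain ⟨b, hb⟩ := IsLocalization.exist_integer_multiples_of_finite (nonZeroDivisors ℤ) x
  choose y hy using hb
  refine ⟨b, y, nonZeroDivisors.coe_ne_zero b, ?_⟩
  funext i
  have := hy i
  simpa using this

/-- the integral points of a rational subspace -/
def ipt (Λ : Submodule ℚ (ι → ℚ)) : Submodule ℤ (ι → ℤ) :=
  (Λ.restrictScalars ℤ).comap (cst ℚ ι)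

omit [Fintype ι] in
theorem mem_ipt {Λ : Submodule ℚ (ι → ℚ)} {x : ι → ℤ} : x ∈ ipt Λ ↔ cst ℚ ι x ∈ Λ := Iff.rfl

omit [Fintype ι] in
theorem ipt_sat (Λ : Submodule ℚ (ι → ℚ)) (c : ℤ) (hc : c ≠ 0) (x : ι → ℤ)
    (h : c • x ∈ ipt Λ) : x ∈ ipt Λ := by
  rw [mem_ipt, map_smul, ← Int.cast_smul_eq_zsmul ℚ] at h
  exact (Λ.smul_mem_iff (by exact_mod_cast hc)).1 h

theorem finrank_ipt (Λ : Submodule ℚ (ι → ℚ)) : finrank ℚ Λ ≤ finrank ℤ (ipt Λ) := by
  let b := Module.finBasis ℤ (ipt Λ)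
  have h : Λ ≤ Submodule.span ℚ (Set.range fun i => cst ℚ ι (b i)) := by
    intro x hx
    obtain ⟨c, y, hc, hy⟩ := exists_mul_cst x
    have hc' : (c : ℚ) ≠ 0 := by exact_mod_cast hc
    have hm : y ∈ ipt Λ := by rw [mem_ipt, hy]; exact Λ.smul_mem _ hx
    rw [← Submodule.smul_mem_iff _ hc', ← hy]
    have e : y = ∑ i, b.repr ⟨y, hm⟩ i • (b i : ι → ℤ) := by
      have := congrArg Subtype.val (b.sum_repr ⟨y, hm⟩)
      rw [AddSubmonoidClass.coe_finsetSum] at this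
      exact this.symm
    rw [e, map_sum]
    refine Submodule.sum_mem _ fun i _ => ?_
    rw [map_smul, ← Int.cast_smul_eq_zsmul ℚ]
    exact Submodule.smul_mem _ _ (Submodule.subset_span ⟨i, rfl⟩)
  have h2 := finrank_range_le_card (R := ℚ) fun i => cst ℚ ι (b i)
  rw [Fintype.card_fin] at h2
  exact (Submodule.finrank_mono h).trans h2

/-- the reduction of a sublattice modulo `p` -/
def red (p : ℕ) (N : Submodule ℤ (ι → ℤ)) : Submodule (ZMod p) (ι → ZMod p) where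
  carrier := {z | ∃ x ∈ N, cst (ZMod p) ι x = z}
  add_mem' := by
    rintro _ _ ⟨x, hx, rfl⟩ ⟨y, hy, rfl⟩
    exact ⟨x + y, N.add_mem hx hy, map_add _ _ _⟩
  zero_mem' := ⟨0, N.zero_mem, map_zero _⟩
  smul_mem' := by
    rintro c _ ⟨x, hx, rfl⟩
    obtain ⟨k, rfl⟩ := ZMod.intCast_surjective c
    exact ⟨k • x, N.smul_mem k hx, by rw [map_smul, Int.cast_smul_eq_zsmul]⟩

omit [Fintype ι] in
theorem mem_red {p : ℕ} {N : Submodule ℤ (ι → ℤ)} {z : ι → ZMod p} :
    z ∈ red p N ↔ ∃ x ∈ N, cst (ZMod p) ι x = z := Iff.rfl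

omit [Fintype ι] in
theorem cst_eq_zero {p : ℕ} {x : ι → ℤ} : cst (ZMod p) ι x = 0 ↔ ∃ w : ι → ℤ, x = (p : ℤ) • w := by
  constructor
  · intro h
    have : ∀ i, ∃ w : ℤ, x i = p * w := fun i =>
      (ZMod.intCast_zmod_eq_zero_iff_dvd _ _).1 (congrFun h i)
    choose w hw using this
    exact ⟨w, funext hw⟩
  · rintro ⟨w, rfl⟩
    funext i
    simp

/-- a saturated sublattice keeps its rank modulo `p` -/
theorem finrank_red (p : ℕ) [Fact p.Prime] (N : Submodule ℤ (ι → ℤ))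
    (hN : ∀ x : ι → ℤ, (p : ℤ) • x ∈ N → x ∈ N) : finrank ℤ N ≤ finrank (ZMod p) (red p N) := by
  let b := Module.finBasis ℤ N
  have hli : LinearIndependent (ZMod p) fun i => cst (ZMod p) ι (b i) := by
    rw [Fintype.linearIndependent_iff]
    intro g hg i
    choose k hk using fun i => ZMod.intCast_surjective (g i)
    have h1 : cst (ZMod p) ι ((∑ i, k i • b i : N) : ι → ℤ) = 0 := by
      rw [← hg]
      simp only [AddSubmonoidClass.coe_finsetSum, SetLike.val_smul, map_sum, map_smul]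
      exact Finset.sum_congr rfl fun i _ => by rw [← hk i, Int.cast_smul_eq_zsmul]
    obtain ⟨w, hw⟩ := cst_eq_zero.1 h1
    have hwN : w ∈ N := hN w (hw ▸ (∑ i, k i • b i : N).2)
    have h2 : (∑ i, k i • b i : N) = (p : ℤ) • (⟨w, hwN⟩ : N) := Subtype.ext hw
    have h3 := congrArg (fun z => b.repr z i) h2
    simp only [map_sum, map_smul, Basis.repr_self, Finsupp.smul_single, smul_eq_mul, mul_one,
      Finsupp.coe_finsetSum, Finset.sum_apply, Finsupp.single_apply, Finset.sum_ite_eq',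
      Finset.mem_univ, if_true, Finsupp.coe_smul, Pi.smul_apply] at h3
    rw [← hk i, h3]
    simp
  have h1 := finrank_span_eq_card hli
  rw [Fintype.card_fin] at h1
  rw [← h1]
  apply Submodule.finrank_mono
  rw [Submodule.span_le]
  rintro _ ⟨i, rfl⟩
  exact ⟨b i, (b i).2, rfl⟩

end Red

section Mat

variable {α β : Type*} [Fintype α] [DecidableEq α] [Fintype β] [DecidableEq β]

/-- the form of an integral matrix over a commutative ring -/
def fm (R : Type*) [CommRing R] (G : Matrix α α ℤ) : (α → R) →ₗ[R] (α → R) →ₗ[R] R :=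
  Matrix.toBilin' (G.map (Int.castRingHom R))

theorem fm_apply (R : Type*) [CommRing R] (G : Matrix α α ℤ) (x y : α → R) :
    fm R G x y = ∑ i, ∑ j, x i * (G i j : R) * y j := by
  simp [fm, Matrix.toBilin'_apply]

theorem fm_cst (R : Type*) [CommRing R] (G : Matrix α α ℤ) (x y : α → ℤ) :
    fm R G (cst R α x) (cst R α y) = ((fm ℤ G x y : ℤ) : R) := by
  simp [fm_apply]

theorem fm_sy (R : Type*) [CommRing R] {G : Matrix α α ℤ} (hs : G.IsSymm) (x y : α → R) :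
    fm R G x y = fm R G y x := by
  rw [fm_apply, fm_apply, Finset.sum_comm]
  refine Finset.sum_congr rfl fun i _ => Finset.sum_congr rfl fun j _ => ?_
  rw [hs.apply i j]
  ring

theorem fm_nd (R : Type*) [Field R] {G : Matrix α α ℤ} (hd : ((G.det : ℤ) : R) ≠ 0) (x : α → R)
    (h : ∀ y, fm R G x y = 0) : x = 0 := by
  have h1 : (G.map (Int.castRingHom R)).det ≠ 0 := by
    rw [← RingHom.mapMatrix_apply, ← RingHom.map_det]
    exact hd
  refine Matrix.eq_zero_of_vecMul_eq_zero h1 ?_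
  funext j
  have := h (Pi.single j 1)
  rw [fm, Matrix.toBilin'_apply', Matrix.dotProduct_mulVec] at this
  simpa using this

theorem fm_block (R : Type*) [CommRing R] (G : Matrix α α ℤ) (H : Matrix β β ℤ)
    (x y : α ⊕ β → R) : fm R (fromBlocks G 0 0 H) x y =
      fm R G (x ∘ Sum.inl) (y ∘ Sum.inl) + fm R H (x ∘ Sum.inr) (y ∘ Sum.inr) := by
  simp [fm_apply, Fintype.sum_sum_type]

theorem fm_neg (R : Type*) [CommRing R] (G : Matrix α α ℤ) (x y : α → R) :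
    fm R (-G) x y = - fm R G x y := by
  simp [fm_apply]

theorem fm_smul (R : Type*) [CommRing R] (c : ℤ) (G : Matrix α α ℤ) (x y : α → R) :
    fm R (c • G) x y = c * fm R G x y := by
  simp only [fm_apply, Finset.mul_sum, Matrix.smul_apply, smul_eq_mul, Int.cast_mul]
  exact Finset.sum_congr rfl fun i _ => Finset.sum_congr rfl fun j _ => by ring

/-- the second residue form of a metabolic form is isotropic -/
theorem res_iso (p : ℕ) [hp : Fact p.Prime] [Nonempty β] {G : Matrix α α ℤ} (H : Matrix β β ℤ)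
    (hs : G.IsSymm) (hd : ¬ (p : ℤ) ∣ G.det) (h : Met (fm ℚ (fromBlocks G 0 0 ((p : ℤ) • H)))) :
    ∃ x : β → ZMod p, x ≠ 0 ∧ fm (ZMod p) H x x = 0 := by
  obtain ⟨Λ, h1, h2⟩ := h
  have hp0 : (p : ℤ) ≠ 0 := by exact_mod_cast hp.out.ne_zero
  have e1 := finrank_ipt Λ
  have e2 := finrank_red p (ipt Λ) (ipt_sat Λ p hp0)
  have hz : ∀ x ∈ ipt Λ, ∀ y ∈ ipt Λ, fm ℤ G (x ∘ Sum.inl) (y ∘ Sum.inl) +
      p * fm ℤ H (x ∘ Sum.inr) (y ∘ Sum.inr) = 0 := by
    intro x hx y hy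
    have := h1 _ hx _ hy
    rw [fm_cst, Int.cast_eq_zero, fm_block, fm_smul] at this
    simpa using this
  let f : (α ⊕ β → ZMod p) →ₗ[ZMod p] (α → ZMod p) := LinearMap.funLeft _ _ Sum.inl
  have e3 := LinearMap.finrank_range_add_finrank_ker (f.domRestrict (red p (ipt Λ)))
  rw [LinearMap.range_domRestrict] at e3
  have e4 : 2 * finrank (ZMod p) ((red p (ipt Λ)).map f) ≤ finrank (ZMod p) (α → ZMod p) := by
    refine iso_le (fm_sy _ hs) (fm_nd (ZMod p) (G := G) ?_) ?_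
    · rwa [Ne, ZMod.intCast_zmod_eq_zero_iff_dvd]
    · rintro _ ⟨_, ⟨x, hx, rfl⟩, rfl⟩ _ ⟨_, ⟨y, hy, rfl⟩, rfl⟩
      change fm (ZMod p) G (cst (ZMod p) α (x ∘ Sum.inl)) (cst (ZMod p) α (y ∘ Sum.inl)) = 0
      rw [fm_cst, eq_neg_of_add_eq_zero_left (hz x hx y hy)]
      simp
  have e5 : 0 < Fintype.card β := Fintype.card_pos
  simp only [Module.finrank_fintype_fun_eq_card, Fintype.card_sum] at e4 h2
  have e6 : 0 < finrank (ZMod p) (LinearMap.ker (f.domRestrict (red p (ipt Λ)))) := by omega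
  obtain ⟨⟨⟨_, ⟨x, hx, rfl⟩⟩, hk⟩, hne⟩ := Module.finrank_pos_iff_exists_ne_zero.1 e6
  have hk' : cst (ZMod p) α (x ∘ Sum.inl) = 0 := hk
  refine ⟨cst (ZMod p) β (x ∘ Sum.inr), fun h0 => hne ?_, ?_⟩
  · refine Subtype.ext (Subtype.ext ?_)
    funext i
    rcases i with i | i
    · exact congrFun hk' i
    · exact congrFun h0 i
  · obtain ⟨w, hw⟩ := cst_eq_zero.1 hk'
    have := hz x hx x hx
    rw [hw] at this
    simp only [map_smul, LinearMap.smul_apply, smul_eq_mul] at this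
    rw [← mul_add, mul_eq_zero] at this
    rw [fm_cst, eq_neg_of_add_eq_zero_right (this.resolve_left hp0)]
    simp

end Mat

section Cls

variable {α β : Type} [Fintype α] [DecidableEq α] [Fintype β] [DecidableEq β]

/-- the space of a symmetric integral matrix -/
abbrev Sp.mt (G : Matrix α α ℤ) (h : G.IsSymm ∧ G.det ≠ 0) : Sp where
  V := α → ℚ
  B := fm ℚ G
  sy := fm_sy ℚ h.1
  nd := fm_nd ℚ (by exact_mod_cast h.2)

theorem ok_block {G : Matrix α α ℤ} {H : Matrix β β ℤ} (h : G.IsSymm ∧ G.det ≠ 0)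
    (h' : H.IsSymm ∧ H.det ≠ 0) :
    (fromBlocks G 0 0 H).IsSymm ∧ (fromBlocks G 0 0 H).det ≠ 0 :=
  ⟨Matrix.IsSymm.fromBlocks h.1 (by simp) h'.1, by
    rw [Matrix.det_fromBlocks_zero₂₁]; exact mul_ne_zero h.2 h'.2⟩

theorem ok_neg {G : Matrix α α ℤ} (h : G.IsSymm ∧ G.det ≠ 0) : (-G).IsSymm ∧ (-G).det ≠ 0 :=
  ⟨h.1.neg, by rw [Matrix.det_neg]; exact mul_ne_zero (pow_ne_zero _ (by norm_num)) h.2⟩

theorem cls_block {G : Matrix α α ℤ} {H : Matrix β β ℤ} (h : G.IsSymm ∧ G.det ≠ 0)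
    (h' : H.IsSymm ∧ H.det ≠ 0) :
    cls (Sp.mt _ (ok_block h h')) = cls (Sp.mt G h) + cls (Sp.mt H h') := by
  rw [← cls_add]
  exact cls_eq_of_equiv (LinearEquiv.sumArrowLequivProdArrow α β ℚ ℚ) fun x y =>
    (fm_block ℚ G H x y).symm

theorem cls_mneg {G : Matrix α α ℤ} (h : G.IsSymm ∧ G.det ≠ 0) :
    cls (Sp.mt _ (ok_neg h)) = - cls (Sp.mt G h) := by
  rw [← cls_neg]
  exact cls_eq_of_equiv (LinearEquiv.refl ℚ _) fun x y => (fm_neg ℚ G x y).symm

theorem ok_diag {a : α → ℤ} (h : ∀ i, a i ≠ 0) :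
    (diagonal a).IsSymm ∧ (diagonal a).det ≠ 0 :=
  ⟨Matrix.isSymm_diagonal a, by rw [Matrix.det_diagonal]; exact Finset.prod_ne_zero_iff.2 fun i _ => h i⟩

theorem cls_diag {n : ℕ} {a : Fin n → ℤ} (h : ∀ i, a i ≠ 0) :
    cls (Sp.mt _ (ok_diag h)) = ∑ i, d (a i) := by
  rw [← cls_dg (fun i => (a i : ℚ)) (fun i => by exact_mod_cast h i)]
  refine cls_eq_of_equiv (LinearEquiv.refl ℚ _) fun x y => ?_
  rw [dg_apply]
  change _ = fm ℚ _ x y
  rw [fm_apply]
  refine Finset.sum_congr rfl fun i _ => ?_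
  rw [Finset.sum_eq_single i (fun j _ hj => by simp [Matrix.diagonal_apply_ne' _ hj]) (by simp)]
  simp
  ring

end Cls

/-- the classes with a representative unimodular at `p` -/
def Un (p : ℕ) (hp : p.Prime) : AddSubgroup WQ where
  carrier := {x | ∃ (α : Type) (_ : Fintype α) (_ : DecidableEq α) (G : Matrix α α ℤ)
    (h : G.IsSymm ∧ G.det ≠ 0), ¬ (p : ℤ) ∣ G.det ∧ x = cls (Sp.mt G h)}
  add_mem' := by
    rintro _ _ ⟨α, _, _, G, h, hd, rfl⟩ ⟨β, _, _, H, h', hd', rfl⟩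
    refine ⟨α ⊕ β, inferInstance, inferInstance, _, ok_block h h', ?_, (cls_block h h').symm⟩
    rw [Matrix.det_fromBlocks_zero₂₁]
    intro hh
    exact ((Nat.prime_iff_prime_int.1 hp).dvd_or_dvd hh).elim hd hd'
  zero_mem' := by
    refine ⟨Fin 0, inferInstance, inferInstance, diagonal fun _ => 1,
      ok_diag fun _ => one_ne_zero, ?_, ?_⟩
    · rw [Matrix.det_isEmpty]
      exact (Nat.prime_iff_prime_int.1 hp).not_dvd_one
    · rw [cls_diag fun _ => one_ne_zero]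
      simp
  neg_mem' := by
    rintro _ ⟨α, _, _, G, h, hd, rfl⟩
    refine ⟨α, inferInstance, inferInstance, _, ok_neg h, ?_, (cls_mneg h).symm⟩
    rw [Matrix.det_neg]
    intro hh
    refine ((Nat.prime_iff_prime_int.1 hp).dvd_or_dvd hh).elim (fun h1 => ?_) hd
    exact (Nat.prime_iff_prime_int.1 hp).not_isUnit
      (isUnit_of_dvd_unit h1 ((isUnit_neg_one (α := ℤ)).pow _))

theorem d_mem_Un {p : ℕ} (hp : p.Prime) {a : ℤ} (h : ¬ (p : ℤ) ∣ a) : d a ∈ Un p hp := by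
  have h0 : a ≠ 0 := by rintro rfl; exact h (dvd_zero _)
  refine ⟨Fin 1, inferInstance, inferInstance, diagonal fun _ => a, ok_diag fun _ => h0, ?_, ?_⟩
  · simpa using h
  · rw [cls_diag fun _ => h0]
    simp

theorem iso_of_mem_Un {p : ℕ} [hp : Fact p.Prime] {n : ℕ} (u : Fin (n + 1) → ℤ)
    (hu : ∀ i, u i ≠ 0) (h : ∑ i, d ((p * u i : ℤ)) ∈ Un p hp.out) :
    ∃ x : Fin (n + 1) → ZMod p, x ≠ 0 ∧ ∑ i, (u i : ZMod p) * x i ^ 2 = 0 := by
  have hp0 : (p : ℤ) ≠ 0 := by exact_mod_cast hp.out.ne_zero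
  obtain ⟨α, _, _, G, hG, hd, he⟩ := (Un p hp.out).neg_mem h
  have h0 : ∀ i, (p : ℤ) * u i ≠ 0 := fun i => mul_ne_zero hp0 (hu i)
  have e : cls (Sp.mt _ (ok_block hG (ok_diag h0))) = 0 := by
    rw [cls_block hG (ok_diag h0), cls_diag h0, ← he, neg_add_cancel]
  rw [cls_eq_zero] at e
  have e2 : (diagonal fun i => (p : ℤ) * u i) = (p : ℤ) • diagonal u := by
    rw [← Matrix.diagonal_smul]; rfl
  change Met (fm ℚ _) at e
  rw [e2] at e
  obtain ⟨x, hx, hx'⟩ := res_iso p _ hG.1 hd e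
  refine ⟨x, hx, ?_⟩
  rw [← hx', fm_apply]
  refine Finset.sum_congr rfl fun i _ => ?_
  rw [Finset.sum_eq_single i (fun j _ hj => by simp [Matrix.diagonal_apply_ne' _ hj]) (by simp)]
  simp
  ring

end Vale.Agent.P287Q.Lat.Wq
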